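import Vale.Agent.P166.Haar2.Alg
import Vale.Agent.P157.Parisi.Main.Mass

/-!
Bounds for the calculus of covariance paths, and damped paths.
-/

noncomputable section

open MeasureTheory
open scoped BigOperators

namespace Vale.Agent.P166.Haar2.Stationary

open Vale.Agent.P157.Parisi (weight)
open Vale.Agent.P168.Cascade (Exps)

variable {r : ℕ} {m : Fin r → ℝ} {x : El r} {S L θ θ' κ : ℝ} {f f' g g' : ℝ → ℝ}

lemma wt_nonneg (hm : Exps m) (p : Fin (r + 1)) : 0 ≤ weight m p :=
  Vale.Agent.P157.Parisi.Main.weight_nonneg (q := fun _ => 0)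
    ⟨hm.pos, hm.lt_one, hm.mono, monotone_const, le_rfl, zero_le_one⟩ p

lemma upMass_nonneg (hm : Exps m) (p : Fin (r + 1)) : 0 ≤ El.upMass m p := by
  induction p using Fin.lastCases with
  | last => simp [El.upMass]
  | cast i => simp [El.upMass, (hm.pos i).le]

lemma eig_last (x : El r) : El.eig m x (Fin.last r) = x.s - x.v (Fin.last r) := by
  simp [El.eig, El.upMass, not_lt.2 (Fin.le_last _)]

lemma eig_sub_succ (x : El r) (i : Fin r) :
    El.eig m x i.castSucc - El.eig m x i.succ = m i * (x.v i.succ - x.v i.castSucc) := by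
  have h : (∑ l, if i.castSucc < l then weight m l * x.v l else 0) =
      weight m i.succ * x.v i.succ + ∑ l, if i.succ < l then weight m l * x.v l else 0 := by
    rw [← Fintype.sum_ite_eq' i.succ fun l => weight m l * x.v l, ← Finset.sum_add_distrib]
    refine Finset.sum_congr rfl fun l _ => ?_
    rcases lt_trichotomy i.succ l with h | h | h
    · rw [if_pos (Fin.castSucc_lt_succ.trans h), if_pos h, if_neg h.ne', zero_add]
    · subst h
      simp
    · rw [if_neg (not_lt.2 (Fin.le_castSucc_iff.2 h)), if_neg (not_lt.2 h.le), if_neg h.ne,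
        zero_add]
  have hw : weight m i.succ = El.upMass m i.succ - m i := by
    simp [weight, El.upMass]
  simp only [El.eig, h, hw]
  simp [El.upMass]
  ring

lemma sum_incr (v : Fin (r + 1) → ℝ) (p : Fin (r + 1)) :
    (∑ i : Fin r, if i.val < p.val then v i.succ - v i.castSucc else 0) = v p - v 0 := by
  induction p using Fin.induction with
  | zero => simp
  | succ q ih =>
    have h : (∑ i : Fin r, if i.val < q.succ.val then v i.succ - v i.castSucc else 0) =
        (∑ i : Fin r, if i.val < q.castSucc.val then v i.succ - v i.castSucc else 0) +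
          (v q.succ - v q.castSucc) := by
      rw [← Fintype.sum_ite_eq' q fun i => v i.succ - v i.castSucc, ← Finset.sum_add_distrib]
      refine Finset.sum_congr rfl fun i _ => ?_
      rcases lt_trichotomy i q with h | h | h
      · rw [if_pos (by simp; omega), if_pos (by simp; omega), if_neg h.ne, add_zero]
      · subst h; simp
      · rw [if_neg (by simp; omega), if_neg (by simp; omega), if_neg h.ne', zero_add]
    rw [h, ih]
    ring

lemma sum_incr_all (v : Fin (r + 1) → ℝ) :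
    (∑ i : Fin r, (v i.succ - v i.castSucc)) = v (Fin.last r) - v 0 := by
  rw [← sum_incr v (Fin.last r)]
  simp

lemma cov_nonneg (hx : x.IsCov) (p : Fin (r + 1)) : 0 ≤ x.v p :=
  hx.nonneg.trans (hx.mono (Fin.zero_le p))

lemma eig_mem (hm : Exps m) (hx : x.IsCov) (p : Fin (r + 1)) :
    El.eig m x p ∈ Set.Icc 0 x.s := by
  have h : Antitone (El.eig m x) := by
    refine Fin.antitone_iff_succ_le.2 fun i => ?_
    have := eig_sub_succ (m := m) x i
    nlinarith [hx.mono (Fin.castSucc_lt_succ (i := i)).le, hm.pos i]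
  refine ⟨le_trans ?_ (h (Fin.le_last p)), (h (Fin.zero_le p)).trans ?_⟩
  · rw [eig_last]
    linarith [hx.le]
  · have h1 : 0 ≤ ∑ l, if (0 : Fin (r + 1)) < l then weight m l * x.v l else 0 :=
      Finset.sum_nonneg fun l _ => by
        split_ifs
        · exact mul_nonneg (wt_nonneg hm l) (cov_nonneg hx l)
        · exact le_rfl
    have h2 := mul_nonneg (upMass_nonneg hm 0) (cov_nonneg hx 0)
    simp only [El.eig]
    linarith

lemma s_nonneg (hx : x.IsCov) : 0 ≤ x.s := (cov_nonneg hx _).trans hx.le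

lemma calc_sub_s (m : Fin r → ℝ) (f f' g g' : ℝ → ℝ) (x : El r) :
    (El.calc' m (fun u => f u - g u) (fun u => f' u - g' u) x).s =
      (El.calc' m f f' x).s - (El.calc' m g g' x).s := by
  simp only [El.calc', sub_sub_sub_comm _ (g _) (f _), sub_div, Finset.sum_sub_distrib, sub_mul]
  ring

lemma calc_sub_v (m : Fin r → ℝ) (f f' g g' : ℝ → ℝ) (x : El r) (p : Fin (r + 1)) :
    (El.calc' m (fun u => f u - g u) (fun u => f' u - g' u) x).v p =
      (El.calc' m f f' x).v p - (El.calc' m g g' x).v p := by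
  simp only [El.calc']
  rw [sub_mul, add_sub_add_comm, ← Finset.sum_sub_distrib]
  refine congrArg _ (Finset.sum_congr rfl fun i _ => ?_)
  split_ifs <;> ring

/-- A function with a small derivative moves a covariance path by little. -/
lemma calc_bound (hm : Exps m) (hx : x.IsCov) (hS : x.s ≤ S) (h0 : f 0 = 0)
    (hd : ∀ u ∈ Set.Icc 0 S, HasDerivAt f (f' u) u) (hb : ∀ u ∈ Set.Icc 0 S, |f' u| ≤ L) :
    |(El.calc' m f f' x).s| ≤ L * x.s ∧ ∀ p, |(El.calc' m f f' x).v p| ≤ L * x.v p := by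
  have hmem : ∀ p, El.eig m x p ∈ Set.Icc 0 S := fun p =>
    ⟨(eig_mem hm hx p).1, (eig_mem hm hx p).2.trans hS⟩
  have hlip : ∀ a ∈ Set.Icc 0 S, ∀ b ∈ Set.Icc 0 S, |f b - f a| ≤ L * |b - a| := fun a ha b hb' => by
    simpa [Real.norm_eq_abs] using (convex_Icc (0 : ℝ) S).norm_image_sub_le_of_norm_hasDerivWithin_le
      (fun u hu => (hd u hu).hasDerivWithinAt) (fun u hu => by
        rw [Real.norm_eq_abs]; exact hb u hu) ha hb'
  have hinc : ∀ i : Fin r, |(f (El.eig m x i.castSucc) - f (El.eig m x i.succ)) / m i| ≤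
      L * (x.v i.succ - x.v i.castSucc) := fun i => by
    have h1 := hlip _ (hmem i.succ) _ (hmem i.castSucc)
    rw [eig_sub_succ, abs_mul, abs_of_pos (hm.pos i),
      abs_of_nonneg (sub_nonneg.2 (hx.mono (Fin.castSucc_lt_succ (i := i)).le))] at h1
    rw [abs_div, abs_of_pos (hm.pos i), div_le_iff₀ (hm.pos i)]
    linarith
  have hbase : |f' (El.eig m x 0) * x.v 0| ≤ L * x.v 0 := by
    rw [abs_mul, abs_of_nonneg hx.nonneg]
    exact mul_le_mul_of_nonneg_right (hb _ (hmem 0)) hx.nonneg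
  refine ⟨?_, fun p => ?_⟩
  · have htop : |f (El.eig m x (Fin.last r))| ≤ L * (x.s - x.v (Fin.last r)) := by
      have h1 := hlip 0 ⟨le_rfl, (s_nonneg hx).trans hS⟩ _ (hmem (Fin.last r))
      rw [h0, sub_zero, sub_zero, abs_of_nonneg (hmem _).1] at h1
      exact h1.trans_eq (by rw [eig_last])
    simp only [El.calc']
    refine (abs_add_three _ _ _).trans ?_
    have h2 := (Finset.abs_sum_le_sum_abs _ _).trans
      (Finset.sum_le_sum (s := Finset.univ) fun i _ => hinc i)
    rw [← Finset.mul_sum, sum_incr_all] at h2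
    linarith
  · simp only [El.calc']
    refine (abs_add_le _ _).trans ?_
    have h2 : |∑ i : Fin r, if i.val < p.val then
        (f (El.eig m x i.castSucc) - f (El.eig m x i.succ)) / m i else 0| ≤
        L * (x.v p - x.v 0) := by
      rw [← sum_incr x.v p, Finset.mul_sum]
      refine (Finset.abs_sum_le_sum_abs _ _).trans (Finset.sum_le_sum fun i _ => ?_)
      split_ifs
      · exact hinc i
      · simp
    linarith

/-- An increasing function of a covariance path is a covariance path. -/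
lemma calc_isCov (hm : Exps m) (hx : x.IsCov) (hf : MonotoneOn f (Set.Ici 0)) (h0 : 0 ≤ f 0)
    (h1 : ∀ u, 0 ≤ u → 0 ≤ f' u) : (El.calc' m f f' x).IsCov := by
  have hd : ∀ i : Fin r, 0 ≤ (f (El.eig m x i.castSucc) - f (El.eig m x i.succ)) / m i := fun i => by
    refine div_nonneg (sub_nonneg.2 (hf (eig_mem hm hx _).1 (eig_mem hm hx _).1 ?_)) (hm.pos i).le
    have := eig_sub_succ (m := m) x i
    nlinarith [hx.mono (Fin.castSucc_lt_succ (i := i)).le, hm.pos i]
  refine ⟨fun p p' h => ?_, ?_, ?_⟩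
  · simp only [El.calc']
    refine add_le_add le_rfl (Finset.sum_le_sum fun i _ => ?_)
    have hv : p.val ≤ p'.val := h
    split_ifs with a b
    · exact le_rfl
    · omega
    · exact hd i
    · exact le_rfl
  · simpa [El.calc'] using mul_nonneg (h1 _ (eig_mem hm hx 0).1) hx.nonneg
  · simp only [El.calc', Fin.val_last, Fin.is_lt, if_true]
    have := h0.trans (hf Set.self_mem_Ici (eig_mem hm hx (Fin.last r)).1 (eig_mem hm hx _).1)
    linarith

/-! ### The damped functions -/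

lemma hasDeriv_dampF {u : ℝ} (hθ : 0 ≤ θ) (hu : 0 ≤ u) :
    HasDerivAt (dampF θ) (dampF1 θ u) u := by
  have h : (0 : ℝ) < 1 + θ * u := by positivity
  have := (hasDerivAt_id u).div (((hasDerivAt_id u).const_mul θ).const_add 1) h.ne'
  exact this.congr_deriv (by simp [dampF1]; ring)

lemma hasDeriv_logF {u : ℝ} (hθ : 0 ≤ θ) (hu : 0 ≤ u) :
    HasDerivAt (logF θ) (logF1 θ u) u := by
  have h : (0 : ℝ) < 1 + θ * u := by positivity
  have := (((hasDerivAt_id u).const_mul θ).const_add 1).log h.ne'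
  exact this.congr_deriv (by simp [logF1])

lemma dampF1_mem {u : ℝ} (hθ : 0 ≤ θ) (hu : 0 ≤ u) : dampF1 θ u ∈ Set.Icc (0 : ℝ) 1 := by
  have h : (1 : ℝ) ≤ 1 + θ * u := le_add_of_nonneg_right (mul_nonneg hθ hu)
  refine ⟨div_nonneg zero_le_one (sq_nonneg _), ?_⟩
  exact div_le_one_of_le₀ (one_le_pow₀ h) (sq_nonneg _)

lemma abs_dampF1_sub {u : ℝ} (hθ : 0 ≤ θ) (hθ' : 0 ≤ θ') (hu : 0 ≤ u) (hS : u ≤ S) :
    |dampF1 θ u - dampF1 θ' u| ≤ 2 * S * |θ - θ'| := by
  have ha : (1 : ℝ) ≤ 1 + θ * u := le_add_of_nonneg_right (mul_nonneg hθ hu)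
  have hb : (1 : ℝ) ≤ 1 + θ' * u := le_add_of_nonneg_right (mul_nonneg hθ' hu)
  have ha' := inv_le_one_of_one_le₀ ha
  have hb' := inv_le_one_of_one_le₀ hb
  have e : dampF1 θ u - dampF1 θ' u = ((θ' - θ) * u) * ((1 + θ * u)⁻¹ * (1 + θ' * u)⁻¹) *
      ((1 + θ * u)⁻¹ + (1 + θ' * u)⁻¹) := by
    simp only [dampF1]
    field_simp
    ring
  rw [e, abs_mul, abs_mul, abs_mul (θ' - θ), abs_sub_comm θ' θ, abs_of_nonneg hu,
    abs_of_nonneg (by positivity : 0 ≤ (1 + θ * u)⁻¹ * (1 + θ' * u)⁻¹),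
    abs_of_nonneg (by positivity : 0 ≤ (1 + θ * u)⁻¹ + (1 + θ' * u)⁻¹)]
  calc |θ - θ'| * u * ((1 + θ * u)⁻¹ * (1 + θ' * u)⁻¹) * ((1 + θ * u)⁻¹ + (1 + θ' * u)⁻¹)
      ≤ |θ - θ'| * S * (1 * 1) * (1 + 1) := by
        have : 0 ≤ S := hu.trans hS
        gcongr
    _ = 2 * S * |θ - θ'| := by ring

lemma abs_logF1_sub {u : ℝ} (hθ : 0 ≤ θ) (hθ' : 0 ≤ θ') (hu : 0 ≤ u) :
    |logF1 θ u - logF1 θ' u| ≤ |θ - θ'| := by
  have ha : (1 : ℝ) ≤ 1 + θ * u := le_add_of_nonneg_right (mul_nonneg hθ hu)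
  have hb : (1 : ℝ) ≤ 1 + θ' * u := le_add_of_nonneg_right (mul_nonneg hθ' hu)
  have e : logF1 θ u - logF1 θ' u = (θ - θ') / ((1 + θ * u) * (1 + θ' * u)) := by
    simp only [logF1]
    field_simp
    ring
  rw [e, abs_div, abs_of_pos (by positivity : 0 < (1 + θ * u) * (1 + θ' * u))]
  exact div_le_self (abs_nonneg _) (one_le_mul_of_one_le_of_one_le ha hb)

lemma monotoneOn_dampF (hθ : 0 ≤ θ) : MonotoneOn (dampF θ) (Set.Ici 0) := by
  intro a ha b hb hab
  rw [Set.mem_Ici] at ha hb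
  simp only [dampF]
  rw [div_le_div_iff₀ (by positivity) (by positivity)]
  nlinarith

lemma dampEl_isCov (hm : Exps m) (hx : x.IsCov) (hθ : 0 ≤ θ) : (dampEl m θ x).IsCov :=
  calc_isCov hm hx (monotoneOn_dampF hθ) (by simp [dampF]) fun _ hu => (dampF1_mem hθ hu).1

lemma dampEl_le (hm : Exps m) (hx : x.IsCov) (hθ : 0 ≤ θ) :
    |(dampEl m θ x).s| ≤ x.s ∧ ∀ p, |(dampEl m θ x).v p| ≤ x.v p := by
  have h := calc_bound (L := 1) hm hx le_rfl (by simp [dampF] : dampF θ 0 = 0)
    (fun u hu => hasDeriv_dampF hθ hu.1) fun u hu => by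
      rw [abs_of_nonneg (dampF1_mem hθ hu.1).1]; exact (dampF1_mem hθ hu.1).2
  simpa [dampEl] using h

lemma dampEl_sub (hm : Exps m) (hx : x.IsCov) (hS : x.s ≤ S) (hθ : 0 ≤ θ) (hθ' : 0 ≤ θ') :
    |(dampEl m θ x).s - (dampEl m θ' x).s| ≤ 2 * S * |θ - θ'| * x.s ∧
      ∀ p, |(dampEl m θ x).v p - (dampEl m θ' x).v p| ≤ 2 * S * |θ - θ'| * x.v p := by
  have h := calc_bound (f := fun u => dampF θ u - dampF θ' u)
    (f' := fun u => dampF1 θ u - dampF1 θ' u) (L := 2 * S * |θ - θ'|) hm hx hS (by simp [dampF])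
    (fun u hu => (hasDeriv_dampF hθ hu.1).sub (hasDeriv_dampF hθ' hu.1))
    fun u hu => abs_dampF1_sub hθ hθ' hu.1 hu.2
  simp only [calc_sub_s, calc_sub_v] at h
  exact h

lemma quadV_sub (hm : Exps m) (hx : x.IsCov) (hS : x.s ≤ S) (hθ : 0 ≤ θ) (hθ' : 0 ≤ θ') :
    |quadV m θ x - quadV m θ' x| ≤ |θ - θ'| * x.s := by
  have h := (calc_bound (f := fun u => logF θ u - logF θ' u)
    (f' := fun u => logF1 θ u - logF1 θ' u) (L := |θ - θ'|) hm hx hS (by simp [logF])
    (fun u hu => (hasDeriv_logF hθ hu.1).sub (hasDeriv_logF hθ' hu.1))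
    fun u hu => abs_logF1_sub hθ hθ' hu.1).1
  rw [calc_sub_s] at h
  simp only [quadV]
  rw [← mul_sub, abs_mul]
  norm_num
  linarith [abs_nonneg ((El.calc' m (logF θ) (logF1 θ) x).s - (El.calc' m (logF θ') (logF1 θ') x).s)]

/-- The first order terms of one damped coordinate cancel. -/
lemma quadV_add_damp (hm : Exps m) (hx : x.IsCov) (hS : x.s ≤ 1) (hκ : 0 ≤ κ) :
    |quadV m κ x + κ / 2 * (dampEl m κ x).s| ≤ κ ^ 2 := by
  have e : quadV m κ x + κ / 2 * (dampEl m κ x).s = -(1 / 2) *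
      (El.calc' m (fun u => logF κ u - κ * dampF κ u)
        (fun u => logF1 κ u - κ * dampF1 κ u) x).s := by
    rw [calc_sub_s]
    simp only [quadV, dampEl, El.calc', ← mul_sub, mul_div_assoc, ← Finset.mul_sum, mul_assoc κ]
    ring
  have h := (calc_bound (f := fun u => logF κ u - κ * dampF κ u)
    (f' := fun u => logF1 κ u - κ * dampF1 κ u) (L := κ ^ 2) hm hx hS (by simp [logF, dampF])
    (fun u hu => (hasDeriv_logF hκ hu.1).sub ((hasDeriv_dampF hκ hu.1).const_mul κ))
    fun u hu => by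
      have ha : (1 : ℝ) ≤ 1 + κ * u := le_add_of_nonneg_right (mul_nonneg hκ hu.1)
      have e : logF1 κ u - κ * dampF1 κ u = κ ^ 2 * (u / (1 + κ * u) ^ 2) := by
        simp only [logF1, dampF1]
        field_simp
        ring
      have h0 : 0 ≤ u / (1 + κ * u) ^ 2 := div_nonneg hu.1 (sq_nonneg _)
      rw [e, abs_of_nonneg (mul_nonneg (sq_nonneg κ) h0)]
      refine mul_le_of_le_one_right (sq_nonneg κ) (div_le_one_of_le₀ ?_ (sq_nonneg _))
      exact hu.2.trans (one_le_pow₀ ha)).1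
  rw [e, abs_mul]
  norm_num
  nlinarith [abs_nonneg (El.calc' m (fun u => logF κ u - κ * dampF κ u)
        (fun u => logF1 κ u - κ * dampF1 κ u) x).s, sq_nonneg κ, s_nonneg hx]

lemma quadV_zero (x : El r) : quadV m 0 x = 0 := by
  have h : logF 0 = fun _ => 0 := by funext u; simp [logF]
  have h1 : logF1 0 = fun _ => 0 := by funext u; simp [logF1]
  simp [quadV, El.calc', h, h1]

lemma dampEl_zero (hm : Exps m) (x : El r) : dampEl m 0 x = x := by
  have h : dampF 0 = fun u => u := by funext u; simp [dampF]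
  have h1 : dampF1 0 = fun _ => (1 : ℝ) := by funext u; simp [dampF1]
  have e : ∀ i : Fin r, (El.eig m x i.castSucc - El.eig m x i.succ) / m i =
      x.v i.succ - x.v i.castSucc := fun i => by
    rw [eig_sub_succ, mul_div_cancel_left₀ _ (hm.pos i).ne']
  obtain ⟨s, v⟩ := x
  simp only [dampEl, El.calc', h, h1, e, sum_incr_all, one_mul, eig_last, El.mk.injEq]
  refine ⟨by ring, funext fun p => ?_⟩
  rw [sum_incr]
  ring

end Vale.Agent.P166.Haar2.Stationary
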