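import Vale.Agent.P166.Haar2.Sys
import Vale.Agent.P157.Full.CavPair.Tools
import Vale.Agent.P157.Parisi.Perturb.Basic

/-!
The sites of a Haar rotated system over the uniform base are exchangeable.
-/

noncomputable section

open MeasureTheory ProbabilityTheory
open scoped BigOperators

namespace Vale.Agent.P166.Haar2.Stationary

open Vale.Agent.P157.Parisi (Cube sv overlap)
open Vale.Agent.P157.Parisi.Full.CavPair
  (av2 av2_eq_sum av2_equiv measurable_av2 integrable_av2 abs_av2_sub_le)
open Vale.Agent.P157.Parisi.Perturb (abs_sv abs_overlap_le)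

variable {N G L : ℕ} (P : Sys N G) (s : ℝ) (x : Fin L → ℝ)

lemma continuous_rot (σ : Cube N) (i : Fin N) : Continuous fun U : OG N => rot U σ i :=
  (continuous_apply i).comp (continuous_act _)

lemma measurable_ham (B : RBase N) (σ : Cube N) :
    Measurable fun z : Dz G L B => P.ham s x B z σ := by
  have hrot : ∀ i, Measurable fun z : Dz G L B => rot z.1 σ i := fun i =>
    (continuous_rot σ i).measurable.comp measurable_fst
  have hJ : ∀ c, Measurable fun z : Dz G L B => z.2.1 c := fun c =>
    (measurable_pi_apply c).comp (measurable_fst.comp measurable_snd)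
  have hfeat : ∀ c : PIdx G N L, Measurable fun z : Dz G L B => P.feat z.1 σ c := fun c =>
    Finset.measurable_prod _ fun p _ => by
      by_cases h : c.2 p ∈ P.S p.1
      · simp only [h, if_true]
        exact (hrot _).div_const _
      · simp only [h, if_false]
        exact measurable_const
  refine ((B.meas σ).comp (measurable_snd.comp measurable_snd)).add (Measurable.add ?_ ?_)
  · exact (Finset.measurable_sum _ fun i _ => ((hrot i).pow_const 2).const_mul _).const_mul _
  · exact Finset.measurable_sum _ fun c _ => (hJ c).mul ((hfeat c).const_mul _)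

instance dzLaw_prob (B : RBase N) : IsProbabilityMeasure (dzLaw G L B) := by
  unfold dzLaw
  infer_instance

/-- The mean of a function of two replicas. -/
def pairMean (B : RBase N) (F : Cube N → Cube N → ℝ) : ℝ :=
  ∫ z, av2 (P.ham s x B z) F ∂dzLaw G L B

lemma integrable_pair (B : RBase N) (F : Cube N → Cube N → ℝ) :
    Integrable (fun z => av2 (P.ham s x B z) F) (dzLaw G L B) := by
  refine integrable_av2 (fun σ => measurable_ham P s x B σ) (B := ∑ σ, ∑ τ, |F σ τ|) fun σ τ => ?_
  refine le_trans ?_ (Finset.single_le_sum (f := fun σ => ∑ τ, |F σ τ|)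
    (fun a _ => Finset.sum_nonneg fun b _ => abs_nonneg _) (Finset.mem_univ σ))
  exact Finset.single_le_sum (f := fun τ => |F σ τ|) (fun b _ => abs_nonneg _) (Finset.mem_univ τ)

lemma abs_pairMean_sub_le (B : RBase N) {F F' : Cube N → Cube N → ℝ} {e : ℝ}
    (h : ∀ σ τ, |F σ τ - F' σ τ| ≤ e) :
    |pairMean P s x B F - pairMean P s x B F'| ≤ e := by
  rw [pairMean, pairMean, ← integral_sub (integrable_pair P s x B F) (integrable_pair P s x B F')]
  refine (abs_integral_le_integral_abs.trans (integral_mono_of_nonneg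
    (Filter.Eventually.of_forall fun _ => abs_nonneg _) (integrable_const e)
    (Filter.Eventually.of_forall fun z => abs_av2_sub_le _ h))).trans_eq ?_
  simp

/-- Exchanging two sites. -/
def swapConf (a b : Fin N) : Cube N ≃ Cube N := Equiv.arrowCongr (Equiv.swap a b) (Equiv.refl Bool)

lemma swapConf_apply (a b : Fin N) (σ : Cube N) (i : Fin N) :
    swapConf a b σ i = σ (Equiv.swap a b i) := by
  simp [swapConf]

lemma sv_swapConf (a b : Fin N) (σ : Cube N) (i : Fin N) :
    sv (swapConf a b σ) i = sv σ (Equiv.swap a b i) := by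
  simp [sv, swapConf_apply]

lemma overlap_swapConf (a b : Fin N) (σ τ : Cube N) :
    overlap (swapConf a b σ) (swapConf a b τ) = overlap σ τ := by
  simp only [overlap, sv_swapConf]
  rw [Equiv.sum_comp (Equiv.swap a b) (fun i => sv σ i * sv τ i)]

lemma rot_swapConf {a b : Fin N} (h : a ≠ b) (U : OG N) (σ : Cube N) :
    rot U (swapConf a b σ) = rot (U * refl (ev a - ev b)) σ := by
  rw [rot, rot, act_mul]
  congr 1
  funext i
  rw [act_refl_swap h]
  simp [spin, swapConf_apply]

/-- Means of two replicas do not see an exchange of sites. -/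
theorem pairMean_swap (a b : Fin N) (F : Cube N → Cube N → ℝ) :
    pairMean P s x (unifBase N) F =
      pairMean P s x (unifBase N) (fun σ τ => F (swapConf a b σ) (swapConf a b τ)) := by
  rcases eq_or_ne a b with rfl | hab
  · congr
    simp [swapConf]
  have e : ∀ z : Dz G L (unifBase N), av2 (P.ham s x (unifBase N) z) F =
      av2 (P.ham s x (unifBase N) (z.1 * refl (ev a - ev b), z.2))
        (fun σ τ => F (swapConf a b σ) (swapConf a b τ)) := fun z => by
    rw [← av2_equiv (swapConf a b) (P.ham s x (unifBase N) z) F]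
    congr 1
    funext σ
    simp only [Sys.ham, Sys.ham0, Sys.pert, Sys.feat, rot_swapConf hab]
    rfl
  have hmp : MeasurePreserving
      (Prod.map (fun U : OG N => U * refl (ev a - ev b)) id)
      (dzLaw G L (unifBase N)) (dzLaw G L (unifBase N)) :=
    (measurePreserving_mul_right (orthHaar N) _).prod (MeasurePreserving.id _)
  have hm := (integrable_pair P s x (unifBase N)
    fun σ τ => F (swapConf a b σ) (swapConf a b τ)).aestronglyMeasurable
  simp only [pairMean, e]
  conv_rhs => rw [← hmp.map_eq]
  rw [integral_map hmp.measurable.aemeasurable (by rwa [hmp.map_eq])]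
  rfl

/-- The product of two spins at one site against the overlap. -/
theorem pairMean_exchange {n : ℕ} (P : Sys (n + 1) G) (k : ℕ) :
    pairMean P s x (unifBase (n + 1))
        (fun σ τ => overlap σ τ ^ k * (sv σ (Fin.last n) * sv τ (Fin.last n))) =
      pairMean P s x (unifBase (n + 1)) (fun σ τ => overlap σ τ ^ (k + 1)) := by
  set I : Fin (n + 1) → ℝ := fun i => pairMean P s x (unifBase (n + 1))
    (fun σ τ => overlap σ τ ^ k * (sv σ i * sv τ i))
  have hI : ∀ i, I (Fin.last n) = I i := fun i => by
    refine (pairMean_swap P s x i (Fin.last n) _).trans ?_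
    simp only [sv_swapConf, overlap_swapConf, Equiv.swap_apply_right, I]
  have hsum : ∀ z : Dz G L (unifBase (n + 1)),
      av2 (P.ham s x (unifBase (n + 1)) z) (fun σ τ => overlap σ τ ^ (k + 1)) =
      (1 / (n + 1 : ℝ)) * ∑ i, av2 (P.ham s x (unifBase (n + 1)) z)
        (fun σ τ => overlap σ τ ^ k * (sv σ i * sv τ i)) := fun z => by
    simp only [av2_eq_sum, Finset.mul_sum]
    conv_rhs => rw [Finset.sum_comm]
    refine Finset.sum_congr rfl fun σ _ => ?_
    conv_rhs => rw [Finset.sum_comm]
    refine Finset.sum_congr rfl fun τ _ => ?_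
    simp only [← Finset.mul_sum]
    rw [pow_succ, show overlap σ τ = (∑ i, sv σ i * sv τ i) / (n + 1 : ℝ) by
      rw [overlap]; push_cast; rfl]
    ring
  show I (Fin.last n) = _
  simp only [pairMean, hsum]
  rw [integral_const_mul, integral_finsetSum _ fun i _ => integrable_pair P s x _ _]
  show I (Fin.last n) = 1 / (n + 1 : ℝ) * ∑ i, I i
  simp only [← hI, Finset.sum_const, Finset.card_univ, Fintype.card_fin, nsmul_eq_mul]
  push_cast
  field_simp

/-- The overlap of the first sites of `n + 1`. -/
def preOverlap {n : ℕ} (σ τ : Cube (n + 1)) : ℝ :=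
  overlap (fun i : Fin n => σ i.castSucc) fun i : Fin n => τ i.castSucc

lemma overlap_sub_pre {n : ℕ} (hn : 0 < n) (σ τ : Cube (n + 1)) :
    |overlap σ τ - preOverlap σ τ| ≤ 2 / (n + 1) := by
  have hR : |preOverlap σ τ| ≤ 1 := abs_overlap_le _ _
  have e : overlap σ τ - preOverlap σ τ =
      (sv σ (Fin.last n) * sv τ (Fin.last n) - preOverlap σ τ) / (n + 1) := by
    have hn' : (n : ℝ) ≠ 0 := Nat.cast_ne_zero.2 hn.ne'
    simp only [preOverlap, overlap, Fin.sum_univ_castSucc, sv]
    push_cast
    field_simp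
    ring
  rw [e, abs_div, abs_of_pos (by positivity : (0 : ℝ) < n + 1)]
  gcongr
  refine (abs_sub _ _).trans ?_
  rw [abs_mul, abs_sv, abs_sv]
  linarith

lemma pow_sub_pre {n : ℕ} (hn : 0 < n) (k : ℕ) (σ τ : Cube (n + 1)) :
    |overlap σ τ ^ k - preOverlap σ τ ^ k| ≤ 2 * k / (n + 1) := by
  have hm : max |overlap σ τ| |preOverlap σ τ| ≤ 1 :=
    max_le (abs_overlap_le _ _) (abs_overlap_le _ _)
  calc _ ≤ |overlap σ τ - preOverlap σ τ| * k * max |overlap σ τ| |preOverlap σ τ| ^ (k - 1) :=
        abs_pow_sub_pow_le _ _ _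
    _ ≤ 2 / (n + 1) * k * 1 := by
        gcongr
        · exact overlap_sub_pre hn σ τ
        · exact pow_le_one₀ (le_max_of_le_left (abs_nonneg _)) hm
    _ = _ := by ring

/-- The spins at the new site against a power of the overlap of the old ones. -/
theorem pairMean_pre {n : ℕ} (hn : 0 < n) (P : Sys (n + 1) G) (k : ℕ) :
    |pairMean P s x (unifBase (n + 1))
        (fun σ τ => sv σ (Fin.last n) * sv τ (Fin.last n) * preOverlap σ τ ^ k) -
      pairMean P s x (unifBase (n + 1)) (fun σ τ => preOverlap σ τ ^ (k + 1))| ≤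
      (4 * k + 2) / (n + 1) := by
  have h1 := abs_pairMean_sub_le P s x (unifBase (n + 1))
    (F := fun σ τ => overlap σ τ ^ k * (sv σ (Fin.last n) * sv τ (Fin.last n)))
    (F' := fun σ τ => sv σ (Fin.last n) * sv τ (Fin.last n) * preOverlap σ τ ^ k)
    (e := 2 * k / (n + 1)) fun σ τ => by
      rw [show overlap σ τ ^ k * (sv σ (Fin.last n) * sv τ (Fin.last n)) -
        sv σ (Fin.last n) * sv τ (Fin.last n) * preOverlap σ τ ^ k =
        (overlap σ τ ^ k - preOverlap σ τ ^ k) * (sv σ (Fin.last n) * sv τ (Fin.last n)) by ring,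
        abs_mul, abs_mul (sv σ _), abs_sv, abs_sv, mul_one, mul_one]
      exact pow_sub_pre hn k σ τ
  have h2 := abs_pairMean_sub_le P s x (unifBase (n + 1))
    (F := fun σ τ => overlap σ τ ^ (k + 1)) (F' := fun σ τ => preOverlap σ τ ^ (k + 1))
    (e := 2 * ((k + 1 : ℕ) : ℝ) / (n + 1)) fun σ τ => pow_sub_pre hn (k + 1) σ τ
  rw [pairMean_exchange s x P k] at h1
  rw [abs_le] at h1 h2 ⊢
  push_cast at h2
  have e : (4 * (k : ℝ) + 2) / (n + 1) = 2 * k / (n + 1) + 2 * (k + 1) / (n + 1) := by ring
  constructor <;> linarith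

end Vale.Agent.P166.Haar2.Stationary
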