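import Vale.Agent.P166.Haar2.Statements
import Vale.Agent.P166.Haar2.Stationary.Exchange
import Vale.Agent.P168.Limit.GibbsLemmas

/-!
The test weight on `N + 1` sites to first order.
-/

noncomputable section

open MeasureTheory ProbabilityTheory
open scoped BigOperators

namespace Vale.Agent.P166.Haar2.Stationary

open Vale.Agent.P157 (gam)
open Vale.Agent.P157.Parisi (Cube sv overlap unitVec scale)
open Vale.Agent.P157.Parisi.Full.CavPair (av2 av2_eq_sum)
open Vale.Agent.P168.Limit (gw gav)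

variable {N K : ℕ}

/-- The unit vector of a test field. -/
def tvec {k : ℕ} (σ : Cube (N + 1)) (t : TIdx N k) : ℝ :=
  ∏ l, unitVec (fun i => σ i.castSucc) (t l)

/-- The sign of the test factor. -/
def tsgn (lin : Bool) (σ : Cube (N + 1)) : ℝ :=
  if lin then 1 else if σ (Fin.last N) then 1 else -1

lemma tsgn_or (lin : Bool) (σ : Cube (N + 1)) : tsgn lin σ = 1 ∨ tsgn lin σ = -1 := by
  unfold tsgn
  split_ifs <;> simp

lemma tvec_dot (hN : 0 < N) {k : ℕ} (σ τ : Cube (N + 1)) :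
    ∑ t : TIdx N k, tvec σ t * tvec τ t = preOverlap σ τ ^ k := by
  simp only [tvec, ← Finset.prod_mul_distrib]
  rw [← Fintype.prod_sum fun (_ : Fin k) i =>
    unitVec (fun i : Fin N => σ i.castSucc) i * unitVec (fun i : Fin N => τ i.castSucc) i,
    Finset.prod_const, Finset.card_univ, Fintype.card_fin]
  congr 1
  have hN' : (0 : ℝ) < N := Nat.cast_pos.2 hN
  simp only [preOverlap, overlap, unitVec, Finset.sum_div]
  refine Finset.sum_congr rfl fun i _ => ?_
  rw [div_mul_div_comm, Real.mul_self_sqrt hN'.le]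

lemma preOverlap_self (hN : 0 < N) (σ : Cube (N + 1)) : preOverlap σ σ = 1 := by
  have hN' : (N : ℝ) ≠ 0 := Nat.cast_ne_zero.2 hN.ne'
  simp only [preOverlap, overlap, sv]
  rw [div_eq_one_iff_eq hN', Finset.sum_eq_card_nsmul (b := (1 : ℝ))]
  · rw [Finset.card_univ, Fintype.card_fin, nsmul_one]
  · intro i _
    split_ifs <;> norm_num

lemma sum_tvec_sq (hN : 0 < N) {k : ℕ} (σ : Cube (N + 1)) :
    ∑ t : TIdx N k, tvec σ t ^ 2 = 1 := by
  simp only [sq]
  rw [tvec_dot hN, preOverlap_self hN, one_pow]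

/-- The mean logarithm of the test weight. -/
def testLog (a : Fin (K + 1) → ℝ) (w : Fin (N + 1) → Fin (K + 1)) (x : Fin N → ℝ) (k : ℕ)
    (κ : ℝ) (lin : Bool) : ℝ :=
  testFree a w x k κ lin - (stdSys a w).free (scale N) x (unifBase (N + 1))

lemma testLog_zero (a : Fin (K + 1) → ℝ) (w : Fin (N + 1) → Fin (K + 1)) (x : Fin N → ℝ)
    (k : ℕ) (lin : Bool) : testLog a w x k 0 lin = 0 := by
  have h : ∀ H : Cube (N + 1) → ℝ, Real.log (gav H fun _ => (1 : ℝ)) = 0 := fun H => by
    have hw := Finset.sum_pos (fun σ (_ : σ ∈ (Finset.univ : Finset (Cube (N + 1)))) =>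
      Real.exp_pos (H σ)) Finset.univ_nonempty
    simp only [gav, gw, mul_one]
    rw [← Finset.sum_div, div_self hw.ne', Real.log_one]
  rw [testLog, testFree, add_sub_cancel_left]
  have h' : ∀ g : TIdx N k → ℝ, (fun (_ : OG (N + 1)) (σ : Cube (N + 1)) =>
      Real.exp (Real.sqrt 0 * (if lin then 1 else if σ (Fin.last N) then 1 else -1) *
          testZ g (fun i => σ i.castSucc) -
        0 * testZ g (fun i => σ i.castSucc) ^ 2 / 2)) = fun _ _ => (1 : ℝ) := fun g => by
    funext U σ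
    rw [Real.sqrt_zero, zero_mul, zero_mul, zero_mul, zero_div, sub_zero, Real.exp_zero]
  simp_rw [h']
  unfold Sys.lavg
  simp_rw [h]
  simp

/-- The first order expansion of the mean logarithm of the test weight. -/
theorem testLog_expand {C : ℝ}
    (hT : ∀ (X ι : Type) [Fintype X] [Nonempty X] [Fintype ι] (w c : X → ℝ) (u : X → ι → ℝ),
    (∀ σ, 0 ≤ w σ) → (∑ σ, w σ = 1) → (∀ σ, c σ = 1 ∨ c σ = -1) →
    (∀ σ, ∑ i, u σ i ^ 2 = 1) → ∀ κ ∈ Set.Icc (0 : ℝ) 1,
      |(∫ g, Real.log (∑ σ, w σ * Real.exp (Real.sqrt κ * c σ * (∑ i, g i * u σ i) -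
          κ * (∑ i, g i * u σ i) ^ 2 / 2)) ∂gam ι) +
        κ / 2 * ∑ σ, ∑ τ, w σ * w τ * (c σ * c τ * ∑ i, u σ i * u τ i)| ≤ C * κ * Real.sqrt κ)
    (hN : 0 < N) (a : Fin (K + 1) → ℝ) (w : Fin (N + 1) → Fin (K + 1)) (x : Fin N → ℝ) (k : ℕ)
    {κ : ℝ} (hκ : κ ∈ Set.Icc (0 : ℝ) 1) (lin : Bool) :
    |testLog a w x k κ lin + κ / 2 * pairMean (stdSys a w) (scale N) x (unifBase (N + 1))
        (fun σ τ => tsgn lin σ * tsgn lin τ * preOverlap σ τ ^ k)| ≤ C * κ * Real.sqrt κ := by
  set P := stdSys a w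
  set B := unifBase (N + 1)
  set Z : (TIdx N k → ℝ) → Cube (N + 1) → ℝ := fun g σ => ∑ t, g t * tvec σ t with hZ
  set Y : (TIdx N k → ℝ) → Cube (N + 1) → ℝ := fun g σ =>
    Real.exp (Real.sqrt κ * tsgn lin σ * Z g σ - κ * Z g σ ^ 2 / 2) with hY
  set f : (TIdx N k → ℝ) → Dz (K + 2) N B → ℝ := fun g z =>
    Real.log (gav (P.ham (scale N) x B z) (Y g)) with hf
  have e : testLog a w x k κ lin = ∫ g, ∫ z, f g z ∂dzLaw (K + 2) N B ∂gam (TIdx N k) := by
    simp only [testLog, testFree, Sys.lavg, add_sub_cancel_left]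
    rfl
  have hbound : ∀ g σ, |Real.sqrt κ * tsgn lin σ * Z g σ - κ * Z g σ ^ 2 / 2| ≤
      1 + 2 * ∑ t, (1 + g t ^ 2) := by
    intro g σ
    have hc : |Real.sqrt κ * tsgn lin σ| ≤ 1 := by
      rcases tsgn_or lin σ with h | h <;>
        simp [h, abs_of_nonneg (Real.sqrt_nonneg κ), Real.sqrt_le_one, hκ.2]
    have hz : Z g σ ^ 2 ≤ ∑ t, g t ^ 2 := by
      have := Finset.sum_mul_sq_le_sq_mul_sq Finset.univ g (tvec σ)
      rwa [sum_tvec_sq hN, mul_one] at this
    have hz0 : ∑ t, g t ^ 2 ≤ ∑ t, (1 + g t ^ 2) := Finset.sum_le_sum fun t _ => by linarith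
    have h1 : |Real.sqrt κ * tsgn lin σ * Z g σ| ≤ 1 + Z g σ ^ 2 := by
      rw [abs_mul]
      refine (mul_le_of_le_one_left (abs_nonneg _) hc).trans ?_
      nlinarith [sq_nonneg (|Z g σ| - 1), sq_abs (Z g σ)]
    have h2 : |κ * Z g σ ^ 2 / 2| ≤ Z g σ ^ 2 := by
      rw [abs_of_nonneg (by have := hκ.1; positivity)]
      nlinarith [mul_le_mul_of_nonneg_right hκ.2 (sq_nonneg (Z g σ)), sq_nonneg (Z g σ)]
    exact (abs_sub _ _).trans (by linarith)
  have hpos : ∀ (H : Cube (N + 1) → ℝ) (g), |Real.log (gav H (Y g))| ≤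
      1 + 2 * ∑ t, (1 + g t ^ 2) := by
    intro H g
    set M := 1 + 2 * ∑ t, (1 + g t ^ 2)
    have hw := Finset.sum_pos (fun σ (_ : σ ∈ (Finset.univ : Finset (Cube (N + 1)))) =>
      Real.exp_pos (H σ)) Finset.univ_nonempty
    have hw0 : ∀ σ, 0 ≤ gw H σ := fun σ => div_nonneg (Real.exp_pos _).le hw.le
    have hw1 : ∑ σ, gw H σ = 1 := by
      simp only [gw, ← Finset.sum_div, div_self hw.ne']
    have lo : Real.exp (-M) ≤ gav H (Y g) := by
      rw [gav, ← one_mul (Real.exp (-M)), ← hw1, Finset.sum_mul]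
      exact Finset.sum_le_sum fun σ _ => mul_le_mul_of_nonneg_left
        (Real.exp_le_exp.2 (abs_le.1 (hbound g σ)).1) (hw0 σ)
    have hi : gav H (Y g) ≤ Real.exp M := by
      rw [gav, ← one_mul (Real.exp M), ← hw1, Finset.sum_mul]
      exact Finset.sum_le_sum fun σ _ => mul_le_mul_of_nonneg_left
        (Real.exp_le_exp.2 (abs_le.1 (hbound g σ)).2) (hw0 σ)
    have hp := (Real.exp_pos (-M)).trans_le lo
    rw [abs_le]
    exact ⟨(Real.le_log_iff_exp_le hp).2 lo, (Real.log_le_iff_le_exp hp).2 hi⟩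
  have hint : Integrable (Function.uncurry f) ((gam (TIdx N k)).prod (dzLaw (K + 2) N B)) := by
    have hm : Measurable (Function.uncurry f) := by
      refine Real.measurable_log.comp (Finset.measurable_sum _ fun σ _ => Measurable.mul ?_ ?_)
      · exact ((Real.measurable_exp.comp ((measurable_ham P _ x B σ).comp measurable_snd))).div
          (Finset.measurable_sum _ fun τ _ =>
            Real.measurable_exp.comp ((measurable_ham P _ x B τ).comp measurable_snd))
      · simp only [hY, hZ]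
        fun_prop
    have hM : Integrable (fun g : TIdx N k → ℝ => 1 + 2 * ∑ t, (1 + g t ^ 2)) (gam (TIdx N k)) := by
      refine (integrable_const _).add ((integrable_finsetSum _ fun t _ => ?_).const_mul 2)
      refine (integrable_const _).add ?_
      exact integrable_comp_eval (μ := fun _ : TIdx N k => gaussianReal 0 1) (i := t)
        (f := fun u : ℝ => u ^ 2)
        ((memLp_id_gaussianReal (μ := 0) (v := 1) 2).integrable_sq)
    refine Integrable.mono' (hM.comp_fst (dzLaw (K + 2) N B)) hm.aestronglyMeasurable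
      (Filter.Eventually.of_forall fun p => ?_)
    rw [Real.norm_eq_abs]
    exact hpos _ p.1
  have h2 : Integrable (fun z => ∫ g, f g z ∂gam (TIdx N k)) (dzLaw (K + 2) N B) :=
    hint.integral_prod_right
  rw [e, integral_integral_swap hint, pairMean, ← integral_const_mul,
    ← integral_add h2 ((integrable_pair P _ x B _).const_mul _)]
  refine abs_integral_le_integral_abs.trans ((integral_mono_of_nonneg
    (Filter.Eventually.of_forall fun _ => abs_nonneg _) (integrable_const (C * κ * Real.sqrt κ))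
    (Filter.Eventually.of_forall fun z => ?_)).trans_eq (by simp))
  set H := P.ham (scale N) x B z with hH
  have hw := Finset.sum_pos (fun σ (_ : σ ∈ (Finset.univ : Finset (Cube (N + 1)))) =>
    Real.exp_pos (H σ)) Finset.univ_nonempty
  have h := hT (Cube (N + 1)) (TIdx N k) (gw H) (tsgn lin) (fun σ => tvec σ)
    (fun σ => div_nonneg (Real.exp_pos _).le hw.le)
    (by simp only [gw, ← Finset.sum_div, div_self hw.ne'])
    (tsgn_or lin) (fun σ => sum_tvec_sq hN σ) κ hκ
  simp only [tvec_dot hN] at h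
  simp only [hf, hY, hZ, ← hH, av2_eq_sum, gav]
  exact h

end Vale.Agent.P166.Haar2.Stationary
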