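import Vale.Agent.P157.Parisi.System
import Vale.Agent.P157.Parisi.Upper.PairMom
import Vale.Agent.P157.Full.Bernstein

/-!
A bounded Lipschitz defect with vanishing moments vanishes in mean.
-/

noncomputable section

open Filter Polynomial
open scoped BigOperators Topology

namespace Vale.Agent.P166.Haar2.Stationary

open Vale.Agent.P157.Parisi (Path weight IsPath)
open Vale.Agent.P157.Parisi.Full (bern_approx)

variable {L : ℝ}

/-- A Lipschitz extension of values given at finitely many points. -/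
lemma exists_extend {ι : Type} [Fintype ι] [Nonempty ι] (q φ : ι → ℝ) (hL : 0 ≤ L)
    (h : ∀ p p', |φ p - φ p'| ≤ L * |q p - q p'|) :
    ∃ Φ : ℝ → ℝ, (∀ p, Φ (q p) = φ p) ∧ ∀ s t, |Φ s - Φ t| ≤ L * |s - t| := by
  refine ⟨fun t => Finset.univ.inf' Finset.univ_nonempty fun p => φ p + L * |t - q p|,
    fun p => le_antisymm ?_ ?_, fun s t => ?_⟩
  · exact (Finset.inf'_le (s := Finset.univ) (fun p' => φ p' + L * |q p - q p'|)
      (Finset.mem_univ p)).trans_eq (by simp)
  · exact Finset.le_inf' _ _ fun p' _ => by linarith [(abs_le.1 (h p p')).2]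
  · have key : ∀ s t, (Finset.univ.inf' Finset.univ_nonempty fun p => φ p + L * |s - q p|) ≤
        (Finset.univ.inf' Finset.univ_nonempty fun p => φ p + L * |t - q p|) + L * |s - t| :=
      fun s t => by
        rw [← sub_le_iff_le_add]
        refine Finset.le_inf' _ _ fun p _ => ?_
        rw [sub_le_iff_le_add]
        refine (Finset.inf'_le (fun p => φ p + L * |s - q p|) (Finset.mem_univ p)).trans ?_
        have := mul_le_mul_of_nonneg_left (abs_sub_le s t (q p)) hL
        linarith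
    have k1 := key t s
    rw [abs_sub_comm t s] at k1
    rw [abs_le]
    dsimp only
    constructor <;> linarith [key s t]

/-- From moments to the mean of the absolute value. -/
theorem mean_abs_of_moments (ξ : ℕ → Path) (φ : ∀ j, Fin ((ξ j).r + 1) → ℝ) (hL : 0 ≤ L)
    (hφ1 : ∀ j p, |φ j p| ≤ 1)
    (hlip : ∀ j p p', |φ j p - φ j p'| ≤ L * |(ξ j).q p - (ξ j).q p'|)
    (hmom : ∀ d : ℕ, Tendsto (fun j => ∑ p, weight (ξ j).m p * ((ξ j).q p ^ d * φ j p))
      atTop (𝓝 0)) :
    Tendsto (fun j => ∑ p, weight (ξ j).m p * |φ j p|) atTop (𝓝 0) := by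
  have hw : ∀ j p, 0 ≤ weight (ξ j).m p := fun j p =>
    Vale.Agent.P157.Parisi.Up.weight_nonneg
      ⟨(ξ j).isPath.pos, (ξ j).isPath.lt_one, (ξ j).isPath.strictMono⟩ p
  have hq : ∀ j p, (ξ j).q p ∈ Set.Icc (0 : ℝ) 1 := fun j p =>
    ⟨(ξ j).isPath.nonneg.trans ((ξ j).isPath.mono (Fin.zero_le p)),
      ((ξ j).isPath.mono (Fin.le_last p)).trans (ξ j).isPath.le_one⟩
  choose Φ hΦq hΦl using fun j => exists_extend (ξ j).q (φ j) hL (hlip j)
  have hΦb : ∀ j, ∀ t ∈ Set.Icc (0 : ℝ) 1, |Φ j t| ≤ 1 + L := by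
    intro j t ht
    have h1 := hΦl j t ((ξ j).q 0)
    rw [hΦq] at h1
    have h2 : |t - (ξ j).q 0| ≤ 1 := by
      have := hq j 0
      rw [Set.mem_Icc] at this ht
      rw [abs_le]; constructor <;> linarith
    have h3 : |Φ j t| ≤ |φ j 0| + |Φ j t - φ j 0| := by
      linarith [abs_sub_abs_le_abs_sub (Φ j t) (φ j 0)]
    linarith [hφ1 j 0, mul_le_mul_of_nonneg_left h2 hL]
  have hsq : Tendsto (fun j => ∑ p, weight (ξ j).m p * φ j p ^ 2) atTop (𝓝 0) := by
    rw [Metric.tendsto_nhds]
    intro ε hε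
    obtain ⟨n, hn0, hn⟩ : ∃ n : ℕ, 0 < n ∧ L / Real.sqrt n ≤ ε / 4 := by
      have h1 := (tendsto_const_nhds (x := L)).div_atTop
        (Real.tendsto_sqrt_atTop.comp (tendsto_natCast_atTop_atTop (R := ℝ)))
      exact ((eventually_gt_atTop 0).and (h1.eventually (eventually_le_nhds (by linarith)))).exists
    set S : ℕ → ℕ → ℝ := fun j i =>
      ∑ p, weight (ξ j).m p * ((bernsteinPolynomial ℝ n i).eval ((ξ j).q p) * φ j p) with hS
    have hSlim : ∀ i, Tendsto (fun j => S j i) atTop (𝓝 0) := by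
      intro i
      set B := bernsteinPolynomial ℝ n i
      have h1 := tendsto_finsetSum (Finset.range (B.natDegree + 1)) fun d _ =>
        (hmom d).const_mul (B.coeff d)
      simp only [mul_zero, Finset.sum_const_zero] at h1
      refine h1.congr fun j => ?_
      simp only [hS, Finset.mul_sum]
      rw [Finset.sum_comm]
      refine Finset.sum_congr rfl fun p _ => ?_
      rw [eval_eq_sum_range, Finset.sum_mul, Finset.mul_sum]
      exact Finset.sum_congr rfl fun d _ => by ring
    have hS' : Tendsto (fun j => (1 + L) * ∑ i ∈ Finset.range (n + 1), |S j i|) atTop (𝓝 0) := by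
      simpa using (tendsto_finsetSum (Finset.range (n + 1)) fun i _ => (hSlim i).abs).const_mul
        (1 + L)
    filter_upwards [hS'.eventually (eventually_le_nhds (show 0 < ε / 4 by linarith))] with j hj
    rw [Real.dist_eq, sub_zero, abs_of_nonneg
      (Finset.sum_nonneg fun p _ => mul_nonneg (hw j p) (sq_nonneg _))]
    set D : Fin ((ξ j).r + 1) → ℝ := fun p => Φ j ((ξ j).q p) -
      ∑ i ∈ Finset.range (n + 1), Φ j (i / n) * (bernsteinPolynomial ℝ n i).eval ((ξ j).q p)
    have hD : ∀ p, |D p| ≤ ε / 4 := fun p => (bern_approx hL (hΦl j) hn0 (hq j p)).trans hn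
    have e : ∑ p, weight (ξ j).m p * φ j p ^ 2 = ∑ p, weight (ξ j).m p * (φ j p * D p) +
        ∑ i ∈ Finset.range (n + 1), Φ j (i / n) * S j i := by
      simp only [hS, Finset.mul_sum]
      rw [Finset.sum_comm (s := Finset.range (n + 1)), ← Finset.sum_add_distrib]
      refine Finset.sum_congr rfl fun p _ => ?_
      simp only [D, hΦq, mul_sub, Finset.mul_sum]
      rw [sub_add, ← Finset.sum_sub_distrib]
      rw [Finset.sum_eq_zero fun i _ => by ring]
      ring
    rw [e]
    have g1 : ∑ p, weight (ξ j).m p * (φ j p * D p) ≤ ε / 4 := by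
      calc _ ≤ ∑ p, weight (ξ j).m p * (ε / 4) := Finset.sum_le_sum fun p _ => by
              refine mul_le_mul_of_nonneg_left ((le_abs_self _).trans ?_) (hw j p)
              rw [abs_mul]
              exact (mul_le_of_le_one_left (abs_nonneg _) (hφ1 j p)).trans (hD p)
        _ = _ := by rw [← Finset.sum_mul, Vale.Agent.P157.Parisi.Up.sum_weight, one_mul]
    have g2 : ∑ i ∈ Finset.range (n + 1), Φ j (i / n) * S j i ≤ ε / 4 := by
      refine le_trans ?_ hj
      rw [Finset.mul_sum]
      refine Finset.sum_le_sum fun i hi => (le_abs_self _).trans ?_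
      rw [abs_mul]
      refine mul_le_mul_of_nonneg_right (hΦb j _ ⟨by positivity, ?_⟩) (abs_nonneg _)
      rw [div_le_one (Nat.cast_pos.2 hn0)]
      exact_mod_cast Nat.lt_succ_iff.1 (Finset.mem_range.1 hi)
    linarith
  rw [Metric.tendsto_nhds]
  intro ε hε
  filter_upwards [hsq.eventually (eventually_lt_nhds (show 0 < ε ^ 2 / 4 by positivity))] with j hj
  rw [Real.dist_eq, sub_zero, abs_of_nonneg
    (Finset.sum_nonneg fun p _ => mul_nonneg (hw j p) (abs_nonneg _))]
  have h1 : ∑ p, weight (ξ j).m p * |φ j p| ≤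
      ∑ p, weight (ξ j).m p * (φ j p ^ 2 / ε + ε / 4) := Finset.sum_le_sum fun p _ => by
    refine mul_le_mul_of_nonneg_left ?_ (hw j p)
    rw [div_add' _ _ _ hε.ne', le_div_iff₀ hε]
    nlinarith [sq_nonneg (|φ j p| - ε / 2), sq_abs (φ j p)]
  simp only [mul_add, mul_div_assoc', Finset.sum_add_distrib, ← Finset.sum_div, ← Finset.sum_mul,
    Vale.Agent.P157.Parisi.Up.sum_weight, one_mul] at h1
  have h2 : (∑ p, weight (ξ j).m p * φ j p ^ 2) / ε < ε / 4 := by
    rw [div_lt_iff₀ hε]; nlinarith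
  linarith

end Vale.Agent.P166.Haar2.Stationary
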