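import Vale.Agent.P166.Haar2.Stationary.Value
import Vale.Agent.P166.Haar2.Stationary.Expand
import Vale.Agent.P166.Haar2.Stationary.Moment
import Vale.Agent.P157.Full.Lip

/-!
Asymptotic cascades of promoted systems are stationary: the conjugate of the field path is the
overlap path.
-/

noncomputable section

open MeasureTheory ProbabilityTheory Filter
open scoped BigOperators Topology

namespace Vale.Agent.P166.Haar2.Stationary

open Vale.Agent.P157.Parisi (Path weight siteValue scale sv)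
open Vale.Agent.P157.Parisi.Full (IsFieldPath siteSlope)

variable {K : ℕ}

/-- The promoted systems. -/
abbrev promoted (Q : SysSeq K) : SysSeq K :=
  SysSeq.mk Q.N Q.a (fun j => promote (Q.w j)) Q.B Q.x

lemma exists_first {N : ℕ} {w : Fin N → Fin (K + 1)} (hw : Function.Surjective w) :
    ∃ coords : Fin (K + 1) → Fin N, GoodCoords w coords := by
  have h : ∀ k : Fin (K + 1), ∃ i, w i = k ∧ ∀ i' < i, w i' ≠ k := fun k => by
    obtain ⟨i₀, hi₀⟩ := hw k
    have hne : (Finset.univ.filter fun i => w i = k).Nonempty := ⟨i₀, by simp [hi₀]⟩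
    obtain ⟨i, hi, hmin⟩ := Finset.exists_min_image _ id hne
    rw [Finset.mem_filter] at hi
    exact ⟨i, hi.2, fun i' hlt he =>
      (hmin i' (Finset.mem_filter.2 ⟨Finset.mem_univ _, he⟩)).not_gt hlt⟩
  choose c hc1 hc2 using h
  refine ⟨c, fun a b hab => ?_, fun k => ?_⟩
  · rw [← hc1 a, ← hc1 b, hab]
  · rw [promote, if_pos]
    intro i' hlt
    rw [hc1 k]
    exact hc2 k i' hlt

lemma abs_frac_promote_sub {N : ℕ} (w : Fin N → Fin (K + 1)) (k : Fin (K + 1)) :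
    |frac (promote w) k - frac w k| ≤ ((K : ℝ) + 1) / N := by
  set S := Finset.univ.filter fun i : Fin N => promote w i ≠ w i with hS
  have hcard : S.card ≤ K + 1 := by
    have hinj : Set.InjOn w S := by
      intro a ha b hb hab
      rw [Finset.mem_coe, hS, Finset.mem_filter] at ha hb
      obtain ⟨-, ha⟩ := ha
      obtain ⟨-, hb⟩ := hb
      rw [promote] at ha hb
      split_ifs at ha hb with h1 h2
      · rcases lt_trichotomy a b with h | h | h
        · exact absurd hab (h2 a h)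
        · exact h
        · exact absurd hab.symm (h1 b h)
      all_goals simp at *
    rw [← Finset.card_image_of_injOn hinj]
    exact (Finset.card_le_univ _).trans_eq (by simp)
  have hd : ∀ f g : Fin N → Fin (K + 1), (∀ i, f i ≠ g i → i ∈ S) →
      ((Finset.univ.filter fun i => f i = k).card : ℝ) ≤
        (Finset.univ.filter fun i => g i = k).card + ((K : ℝ) + 1) := by
    intro f g hfg
    have hsub : (Finset.univ.filter fun i => f i = k) ⊆
        (Finset.univ.filter fun i => g i = k) ∪ S := by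
      intro i hi
      simp only [Finset.mem_filter, Finset.mem_univ, true_and] at hi
      rcases eq_or_ne (f i) (g i) with he | he
      · exact Finset.mem_union_left _ (by simp [← he, hi])
      · exact Finset.mem_union_right _ (hfg i he)
    have := ((Finset.card_le_card hsub).trans (Finset.card_union_le _ _)).trans
      (Nat.add_le_add_left hcard _)
    exact_mod_cast this
  have h1 := hd (promote w) w fun i h => by simp [hS, h]
  have h2 := hd w (promote w) fun i h => by simp [hS, h.symm]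
  rw [frac, frac, ← sub_div, abs_div, Nat.abs_cast]
  refine div_le_div_of_nonneg_right ?_ (Nat.cast_nonneg N)
  rw [abs_le]
  constructor <;> linarith

lemma std_promoted {A : Atoms K} {Q : SysSeq K} (hQ : Q.Std A) : (promoted Q).Std A := by
  refine ⟨hQ.size, hQ.pos, hQ.atoms, fun k => ?_, hQ.box⟩
  have h0 : Tendsto (fun j => ((K : ℝ) + 1) / Q.N j) atTop (𝓝 0) :=
    tendsto_const_nhds.div_atTop (tendsto_natCast_atTop_atTop.comp hQ.size)
  have h1 : Tendsto (fun j => frac (promote (Q.w j)) k - frac (Q.w j) k) atTop (𝓝 0) :=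
    squeeze_zero_norm (fun j => abs_frac_promote_sub (Q.w j) k) h0
  simpa using h1.add (hQ.fracs k)

lemma exists_gap {A : Atoms K} (Cp : Compr A) :
    ∃ g : ℝ, 0 < g ∧ ∀ i, g ≤ A.top - Cp.z i := by
  have h : ∀ᶠ g in 𝓝[>] (0 : ℝ), ∀ i, g ≤ A.top - Cp.z i :=
    eventually_all.2 fun i => eventually_nhdsWithin_of_eventually_nhds
      (eventually_le_nhds (sub_pos.2 (Cp.lt_top i)))
  exact (eventually_mem_nhdsWithin.and h).exists

/-- The test weight is, to first order, its value on the cascade. -/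
theorem testLog_value (hS : StepStmt) (hF : FreshStmt) (hCV : CascValueStmt)
    (hB : BlockFactsStmt) {A : Atoms K} (Cp : Compr A) {Q : SysSeq K} {ξ : ℕ → Path}
    (hQ : Q.Std A) (hu : ∀ j, Q.B j = unifBase (Q.N j)) (hξ : (promoted Q).Approx A ξ)
    (coords : (j : ℕ) → Fin (K + 1) → Fin (Q.N j)) (hc : ∀ j, GoodCoords (Q.w j) (coords j))
    (deg : ℕ) {κ : ℝ} (hκ : κ ∈ Set.Icc (0 : ℝ) 1) (lin : Bool) {ε : ℝ} (hε : 0 < ε) :
    ∀ᶠ j in atTop,
      |testLog (Q.a j) (Fin.snoc (Q.w j) (Fin.last K)) (Q.x j) deg κ lin -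
        mainTerm Cp (ξ j).m (ξ j).q κ lin deg| ≤ κ ^ 2 + ε := by
  obtain ⟨g, hg0, hg⟩ := exists_gap Cp
  obtain ⟨C₀, hC₀⟩ := hB K A
  obtain ⟨C, hC, hnear⟩ := val_near hCV Cp (C₀ := C₀) hg
  set δ₀ := min (g / 2) (ε / (2 * C + 4)) with hδ₀
  have hδ : 0 < δ₀ := lt_min (by linarith) (by positivity)
  have hδg : δ₀ < g := (min_le_left _ _).trans_lt (by linarith)
  have hδε : C * (2 * δ₀) + 4 * δ₀ ≤ ε := by
    have := min_le_right (g / 2) (ε / (2 * C + 4))
    rw [← hδ₀, le_div_iff₀ (by positivity)] at this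
    linarith
  have h0 : (0 : ℝ) ∈ Set.Icc (0 : ℝ) 1 := ⟨le_rfl, zero_le_one⟩
  obtain ⟨δ₁, hδ₁, h1⟩ := hS K A Cp Q hQ hu coords hc (Fin.last K) deg κ lin hκ δ₀ hδ
  obtain ⟨δ₂, hδ₂, h2⟩ := hS K A Cp Q hQ hu coords hc (Fin.last K) deg 0 lin h0 δ₀ hδ
  have hfresh : ∀ d e : ℝ, |d| ≤ δ₀ → e ∈ Set.Icc (0 : ℝ) 1 → ∀ᶠ j in atTop,
      |(stdSys (Q.a j) (promote (Q.w j))).freshLog (scale (Q.N j)) (Q.x j) (unifBase (Q.N j)) deg
          (coords j) (stepX (thA Cp d) (bA Cp) e lin) -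
        val Cp (ξ j).m (ξ j).q d e lin deg| ≤ δ₀ := by
    intro d e hd he
    obtain ⟨Cx, hCx⟩ := stepX_bounds Cp hg (hd.trans_lt hδg) he lin
    have h := hF K A (promoted Q) ξ deg coords (stepX (thA Cp d) (bA Cp) e lin) Cx
      (std_promoted hQ) hξ (fun j => (hc j).1) (fun j i => (hc j).2 i)
      (stepX_continuous _ _ _ _) hCx
    filter_upwards [(Metric.tendsto_nhds.1 h) δ₀ hδ] with j hj
    rw [← hu j]
    rw [Real.dist_eq, sub_zero] at hj
    exact hj.le
  have a1 : |δ₁| ≤ δ₀ := by rw [abs_of_pos hδ₁.1]; exact hδ₁.2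
  have a2 : |δ₂| ≤ δ₀ := by rw [abs_of_pos hδ₂.1]; exact hδ₂.2
  have a1' : |-δ₁| ≤ δ₀ := by rwa [abs_neg]
  have a2' : |-δ₂| ≤ δ₀ := by rwa [abs_neg]
  filter_upwards [h1, h2, hfresh δ₁ κ a1 hκ, hfresh (-δ₁) κ a1' hκ, hfresh δ₂ 0 a2 h0,
    hfresh (-δ₂) 0 a2' h0] with j t1 t2 f1 f2 f3 f4
  dsimp only at t1 t2
  simp only [thA, bA] at f1 f2 f3 f4
  have hz := testLog_zero (Q.a j) (Fin.snoc (Q.w j) (Fin.last K)) (Q.x j) deg lin
  have hP := (hC₀ (ξ j).r (ξ j).m (ξ j).q (ξ j).isPath).2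
  have n1 := abs_le.1 (hnear _ _ _ (ξ j).isPath hP.1 hP.2.1 κ hκ lin deg (-δ₁) δ₂
    (a1'.trans hδg.le) (a2.trans hδg.le))
  have n2 := abs_le.1 (hnear _ _ _ (ξ j).isPath hP.1 hP.2.1 κ hκ lin deg δ₁ (-δ₂)
    (a1.trans hδg.le) (a2'.trans hδg.le))
  rw [abs_le] at f1 f2 f3 f4
  have e1 : C * (|-δ₁| + |δ₂|) ≤ C * (2 * δ₀) := mul_le_mul_of_nonneg_left (by linarith) hC
  have e2 : C * (|δ₁| + |-δ₂|) ≤ C * (2 * δ₀) := mul_le_mul_of_nonneg_left (by linarith) hC
  simp only [testLog] at hz ⊢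
  rw [abs_le]
  constructor <;> linarith [t1.1, t1.2, t2.1, t2.2, n1.1, n1.2, n2.1, n2.2, f1.1, f1.2, f2.1,
    f2.2, f3.1, f3.2, f4.1, f4.2]

/-- The bookkeeping of the expansions. -/
lemma defect_arith {κ s CT CS L₁ L₂ M₁ M₂ T U₁ U₂ : ℝ} (hκ : 0 < κ) (hs : 0 < s) (hs1 : s ≤ 1)
    (hss : s * s = κ) (x1 : |L₁ + κ / 2 * M₁| ≤ CT * κ * s) (x2 : |L₂ + κ / 2 * M₂| ≤ CT * κ * s)
    (x3 : |M₁ - M₂| ≤ s) (v1 : |L₁ - T| ≤ κ ^ 2 + κ * s)
    (v2 : |L₂ - -(κ / 2) * U₂| ≤ κ ^ 2 + κ * s) (x4 : |T + κ / 2 * U₁| ≤ CS * κ * s) :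
    |U₁ - U₂| ≤ 2 * (2 * |CT| + |CS| + 4) * s + s := by
  have hκ1 : κ ≤ s := by nlinarith
  have hks : κ ^ 2 ≤ κ * s := by nlinarith
  have cT : CT * κ * s ≤ |CT| * (κ * s) := by
    rw [mul_assoc]; exact mul_le_mul_of_nonneg_right (le_abs_self _) (by positivity)
  have cS : CS * κ * s ≤ |CS| * (κ * s) := by
    rw [mul_assoc]; exact mul_le_mul_of_nonneg_right (le_abs_self _) (by positivity)
  rw [abs_le] at x1 x2 x3 v1 v2 x4
  have y3 := mul_le_mul_of_nonneg_left x3.1 (half_pos hκ).le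
  have y4 := mul_le_mul_of_nonneg_left x3.2 (half_pos hκ).le
  rw [abs_le]
  constructor
  · refine le_of_mul_le_mul_left ?_ (half_pos hκ)
    linarith [x1.1, x1.2, x2.1, x2.2, v1.1, v1.2, v2.1, v2.2, x4.1, x4.2]
  · refine le_of_mul_le_mul_left ?_ (half_pos hκ)
    linarith [x1.1, x1.2, x2.1, x2.2, v1.1, v1.2, v2.1, v2.2, x4.1, x4.2]

/-- The moments of the defect vanish. -/
theorem moment_defect (hS : StepStmt) (hF : FreshStmt) (hCV : CascValueStmt) (hT : TaylorStmt)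
    (hST : SiteTaylorStmt) (hFL : FieldLipStmt) (hB : BlockFactsStmt)
    {A : Atoms K} (Cp : Compr A) {Q : SysSeq K} {ξ : ℕ → Path}
    (hQ : Q.Std A) (hu : ∀ j, Q.B j = unifBase (Q.N j)) (hξ : (promoted Q).Approx A ξ)
    (coords : (j : ℕ) → Fin (K + 1) → Fin (Q.N j)) (hc : ∀ j, GoodCoords (Q.w j) (coords j))
    (d : ℕ) :
    Tendsto (fun j => ∑ p, weight (ξ j).m p * ((ξ j).q p ^ d *
      (siteSlope (ξ j).m (Cp.fieldEl (ξ j).m (ξ j).q).v p - (ξ j).q p))) atTop (𝓝 0) := by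
  obtain ⟨CT, hCT⟩ := hT
  obtain ⟨CF, -, hCF⟩ := hFL K A Cp
  obtain ⟨CS, hCS⟩ := hST CF
  set D : ℝ := 2 * (2 * |CT| + |CS| + 7) + 1
  have hD : 0 < D := by positivity
  rw [Metric.tendsto_nhds]
  intro ε hε
  set κ := min 1 ((ε / (2 * D)) ^ 2) with hκd
  have hκ0 : 0 < κ := lt_min one_pos (by positivity)
  have hκ : κ ∈ Set.Icc (0 : ℝ) 1 := ⟨hκ0.le, min_le_left _ _⟩
  set s := Real.sqrt κ with hsd
  have hs0 : 0 < s := Real.sqrt_pos.2 hκ0
  have hs1 : s ≤ 1 := Real.sqrt_le_one.2 hκ.2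
  have hss : s * s = κ := Real.mul_self_sqrt hκ0.le
  have hsε : D * s < ε := by
    have h : s ≤ ε / (2 * D) := by
      rw [hsd, ← Real.sqrt_sq (show 0 ≤ ε / (2 * D) by positivity)]
      exact Real.sqrt_le_sqrt (min_le_right _ _)
    rw [le_div_iff₀ (by positivity)] at h
    linarith
  have hN : ∀ᶠ j in atTop, (4 * (d : ℝ) + 2) / ((Q.N j : ℝ) + 1) ≤ s :=
    (tendsto_const_nhds.div_atTop
      (tendsto_atTop_add_const_right _ 1 (tendsto_natCast_atTop_atTop.comp hQ.size))).eventually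
      (eventually_le_nhds hs0)
  filter_upwards [testLog_value hS hF hCV hB Cp hQ hu hξ coords hc d hκ false
      (mul_pos hκ0 hs0),
    testLog_value hS hF hCV hB Cp hQ hu hξ coords hc (d + 1) hκ true (mul_pos hκ0 hs0), hN]
    with j v1 v2 hj
  set m := (ξ j).m
  set q := (ξ j).q
  have hq : Vale.Agent.P157.Parisi.IsPath m q := (ξ j).isPath
  have hm := exps_of_path hq
  set w : Fin (Q.N j + 1) → Fin (K + 1) := Fin.snoc (Q.w j) (Fin.last K)
  have x1 := testLog_expand hCT (hQ.pos j) (Q.a j) w (Q.x j) d hκ false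
  have x2 := testLog_expand hCT (hQ.pos j) (Q.a j) w (Q.x j) (d + 1) hκ true
  have x3 := pairMean_pre (scale (Q.N j)) (Q.x j) (hQ.pos j) (stdSys (Q.a j) w) d
  simp only [tsgn, Bool.false_eq_true, if_false] at x1
  simp only [tsgn, if_true, one_mul] at x2
  simp only [sv] at x3
  set ρ := (Cp.fieldEl m q).v
  obtain ⟨hρc, -, hρl, -⟩ := hCF (ξ j).r m q hq
  have hρ : IsFieldPath m ρ := ⟨hm.pos, hm.lt_one, hm.mono, hρc.mono, hρc.nonneg⟩
  have hΔc := dampEl_isCov hm (powEl_isCov hq d) hκ.1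
  have hΔl : (dampEl m κ (powEl q d)).v (Fin.last (ξ j).r) ≤ 1 :=
    ((le_abs_self _).trans ((dampEl_le hm (powEl_isCov hq d) hκ.1).2 _)).trans
      (pow_le_one₀ (path_mem hq _).1 (path_mem hq _).2)
  have x4 := hCS (ξ j).r m ρ (dampEl m κ (powEl q d)).v hρ
    ⟨hm.pos, hm.lt_one, hm.mono, hΔc.mono, hΔc.nonneg⟩ hρl hΔl κ hκ
  have hdamp : ∀ n p, |(dampEl m κ (powEl q n)).v p - q p ^ n| ≤ 2 * κ := by
    intro n p
    have h := (dampEl_sub (S := 1) hm (powEl_isCov hq n) le_rfl hκ.1 le_rfl).2 p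
    rw [dampEl_zero hm, sub_zero, abs_of_pos hκ0, mul_one] at h
    exact h.trans (mul_le_of_le_one_right (by positivity)
      (pow_le_one₀ (path_mem hq p).1 (path_mem hq p).2))
  set sl := siteSlope m ρ
  have hsl := (Vale.Agent.P157.Parisi.Full.Concave.siteSlope_spec (ξ j).r m ρ hρ).2
  have y1 := abs_sum_wt_le hm (f := fun p => sl p * ((dampEl m κ (powEl q d)).v p - q p ^ d))
    (B := 2 * κ) fun p => by
      rw [abs_mul, abs_of_nonneg (hsl p).1]
      exact (mul_le_of_le_one_left (abs_nonneg _) (hsl p).2).trans (hdamp d p)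
  have y2 := abs_sum_wt_le hm (f := fun p => (dampEl m κ (powEl q (d + 1))).v p - q p ^ (d + 1))
    (B := 2 * κ) (hdamp (d + 1))
  rw [Real.dist_eq, sub_zero]
  set S0 := ∑ p, weight m p * (q p ^ d * (sl p - q p)) with hS0
  set U1 := ∑ p, weight m p * sl p * (dampEl m κ (powEl q d)).v p with hU1
  set U2 := ∑ p, weight m p * (dampEl m κ (powEl q (d + 1))).v p with hU2
  have e : (∑ p, weight m p * (sl p * ((dampEl m κ (powEl q d)).v p - q p ^ d))) -
      (∑ p, weight m p * ((dampEl m κ (powEl q (d + 1))).v p - q p ^ (d + 1))) =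
      U1 - U2 - S0 := by
    rw [hU1, hU2, hS0, ← Finset.sum_sub_distrib, ← Finset.sum_sub_distrib,
      ← Finset.sum_sub_distrib]
    exact Finset.sum_congr rfl fun p _ => by ring
  simp only [mainTerm, Bool.false_eq_true, if_false] at v1
  simp only [mainTerm, if_true] at v2
  have hU' : |U1 - U2| ≤ 2 * (2 * |CT| + |CS| + 4) * s + s :=
    defect_arith hκ0 hs0 hs1 hss x1 x2 (x3.trans hj) v1 v2 x4
  rw [abs_le] at y1 y2
  have hS' : |S0| ≤ |U1 - U2| + 4 * κ := by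
    rw [abs_le]
    constructor <;> linarith [le_abs_self (U1 - U2), neg_le_abs (U1 - U2), e]
  have hκs' : κ ≤ s := by nlinarith
  calc |S0| ≤ |U1 - U2| + 4 * κ := hS'
    _ ≤ D * s + 0 := by nlinarith [abs_nonneg CT, abs_nonneg CS]
    _ < ε := by linarith

end Vale.Agent.P166.Haar2.Stationary

namespace Vale.Agent.P166.Haar2

open Vale.Agent.P157.Parisi (Path weight)
open Vale.Agent.P157.Parisi.Full (siteSlope)
open Stationary

/-- Asymptotic cascades of promoted systems are stationary. -/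
theorem stationary : StepStmt → DemoteStmt → FreshStmt → CascValueStmt → TaylorStmt →
    SiteTaylorStmt → FieldLipStmt → BlockFactsStmt → StationaryStmt := by
  intro hS _ hF hCV hT hST hFL hB K A Cp Q ξ hQ hu hξ
  obtain ⟨j₀, hj₀⟩ : ∃ j₀, ∀ j ≥ j₀, Function.Surjective (Q.w j) := by
    refine eventually_atTop.1 ?_
    filter_upwards [eventually_all.2 fun k => (hQ.fracs k).eventually
      (eventually_gt_nhds (A.pos k))] with j hj k
    by_contra hk
    have h0 : frac (Q.w j) k = 0 := by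
      rw [frac, Finset.filter_false_of_mem fun i _ hi => hk ⟨i, hi⟩]
      simp
    exact lt_irrefl (0 : ℝ) (h0 ▸ hj k)
  set φ : ℕ → ℕ := fun j => j + j₀
  have hφ : Tendsto φ atTop atTop := tendsto_add_atTop_nat j₀
  have hQ' : (Q.sub φ).Std A :=
    ⟨hQ.size.comp hφ, fun j => hQ.pos _, fun k => (hQ.atoms k).comp hφ,
      fun k => (hQ.fracs k).comp hφ, fun j i => hQ.box _ i⟩
  have hξ' : (promoted (Q.sub φ)).Approx A (fun j => ξ (φ j)) :=
    fun n F hFc => (hξ n F hFc).comp hφ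
  choose coords hc using fun j => exists_first (hj₀ (φ j) (Nat.le_add_left j₀ j))
  obtain ⟨CF, hCF0, hCF⟩ := hFL K A Cp
  obtain ⟨CL, hCL0, hCL⟩ := Vale.Agent.P157.Parisi.Full.siteLip CF
  have key := mean_abs_of_moments (L := CL * CF + 1) (fun j => ξ (φ j))
    (fun j p => siteSlope (ξ (φ j)).m (Cp.fieldEl (ξ (φ j)).m (ξ (φ j)).q).v p - (ξ (φ j)).q p)
    (by positivity)
    (fun j p => by
      obtain ⟨hρc, -, -, -⟩ := hCF _ _ _ (ξ (φ j)).isPath
      have h1 := (Vale.Agent.P157.Parisi.Full.Concave.siteSlope_spec _ _ _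
        (⟨(ξ (φ j)).isPath.pos, (ξ (φ j)).isPath.lt_one, (ξ (φ j)).isPath.strictMono, hρc.mono,
          hρc.nonneg⟩ : Vale.Agent.P157.Parisi.Full.IsFieldPath _ _)).2 p
      have h2 := path_mem (ξ (φ j)).isPath p
      rw [abs_le]
      constructor <;> linarith [h1.1, h1.2, h2.1, h2.2])
    (fun j p p' => by
      obtain ⟨hρc, -, hρl, hlip⟩ := hCF _ _ _ (ξ (φ j)).isPath
      have h1 := hCL _ _ _ (⟨(ξ (φ j)).isPath.pos, (ξ (φ j)).isPath.lt_one,
        (ξ (φ j)).isPath.strictMono, hρc.mono, hρc.nonneg⟩ :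
          Vale.Agent.P157.Parisi.Full.IsFieldPath _ _) hρl p p'
      rw [sub_sub_sub_comm, add_mul, one_mul]
      refine (abs_sub _ _).trans (add_le_add (h1.trans ?_) le_rfl)
      rw [mul_assoc]
      exact mul_le_mul_of_nonneg_left (hlip p p') hCL0)
    (moment_defect hS hF hCV hT hST hFL hB Cp hQ' (fun j => hu _) hξ' coords hc)
  exact (tendsto_add_atTop_iff_nat j₀).1 key

end Vale.Agent.P166.Haar2
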