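import Vale.Agent.P166.Haar2.Statements
import Vale.Agent.P166.Haar2.Stationary.Calc
import Vale.Agent.P157.Full.Deriv
import Vale.Agent.P157.Full.Concave.Main

/-!
The value of the demotion weight on a cascade, to first order in the test strength.
-/

noncomputable section

open MeasureTheory
open scoped BigOperators

namespace Vale.Agent.P166.Haar2.Stationary

open Vale.Agent.P157.Parisi (IsPath siteValue weight)
open Vale.Agent.P157.Parisi.Full (IsFieldPath siteSlope)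
open Vale.Agent.P168.Cascade (Exps)

variable {r : ℕ} {m : Fin r → ℝ} {q : Fin (r + 1) → ℝ}

lemma exps_of_path (h : IsPath m q) : Exps m := ⟨h.pos, h.lt_one, h.strictMono⟩

lemma path_mem (h : IsPath m q) (p : Fin (r + 1)) : q p ∈ Set.Icc (0 : ℝ) 1 :=
  ⟨h.nonneg.trans (h.mono (Fin.zero_le p)), (h.mono (Fin.le_last p)).trans h.le_one⟩

lemma sum_wt (m : Fin r → ℝ) : ∑ p : Fin (r + 1), weight m p = 1 :=
  Vale.Agent.P157.Parisi.Up.sum_weight m

lemma abs_sum_wt_le (hm : Exps m) {f : Fin (r + 1) → ℝ} {B : ℝ} (h : ∀ p, |f p| ≤ B) :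
    |∑ p, weight m p * f p| ≤ B := by
  refine (Finset.abs_sum_le_sum_abs _ _).trans
    ((Finset.sum_le_sum fun p _ => ?_).trans_eq (by rw [← Finset.sum_mul, sum_wt m, one_mul]))
  rw [abs_mul, abs_of_nonneg (wt_nonneg hm p)]
  exact mul_le_mul_of_nonneg_left (h p) (wt_nonneg hm p)

/-- The site part moves at most like half of its path. -/
lemma siteValue_lip {ρ ρ' : Fin (r + 1) → ℝ} (h : IsFieldPath m ρ) (h' : IsFieldPath m ρ') {B : ℝ}
    (hB : ∀ p, |ρ' p - ρ p| ≤ B) : |siteValue m ρ' - siteValue m ρ| ≤ B / 2 := by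
  have hm : Exps m := ⟨h.pos, h.lt_one, h.strictMono⟩
  have key : ∀ a b : Fin (r + 1) → ℝ, IsFieldPath m a → IsFieldPath m b →
      (∀ p, |b p - a p| ≤ B) → siteValue m b - siteValue m a ≤ B / 2 := by
    intro a b ha hb hab
    have h1 := Vale.Agent.P157.Parisi.Full.Concave.concave_spec
      Vale.Agent.P157.Parisi.Full.siteDeriv_spec r m a b ha hb
    have hs := (Vale.Agent.P157.Parisi.Full.Concave.siteSlope_spec r m a ha).2
    have h2 := abs_sum_wt_le hm (f := fun p => siteSlope m a p * (b p - a p)) (B := B) fun p => by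
      rw [abs_mul, abs_of_nonneg (hs p).1]
      exact (mul_le_of_le_one_left (abs_nonneg _) (hs p).2).trans (hab p)
    simp only [← mul_assoc] at h2
    linarith [(abs_le.1 h2).1]
  rw [abs_le]
  constructor
  · linarith [key ρ' ρ h' h fun p => by rw [abs_sub_comm]; exact hB p]
  · linarith [key ρ ρ' h h' hB]

lemma powEl_isCov (h : IsPath m q) (k : ℕ) : (powEl q k).IsCov :=
  ⟨fun a b hab => pow_le_pow_left₀ (path_mem h a).1 (h.mono hab) k, pow_nonneg h.nonneg k,
    pow_le_one₀ (path_mem h _).1 (path_mem h _).2⟩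

variable {K : ℕ} {A : Atoms K}

/-- The weights of the coordinates in the step. -/
def thA (Cp : Compr A) (d : ℝ) : Fin (K + 1) → ℝ :=
  Fin.snoc (fun i => A.top - Cp.z i + d) (A.gapTop (Fin.last K))

/-- The fields of the coordinates in the step. -/
def bA (Cp : Compr A) : Fin (K + 1) → ℝ := Fin.snoc Cp.b 0

lemma gapTop_last (A : Atoms K) : A.gapTop (Fin.last K) = 0 := sub_self _

lemma thA_nonneg (Cp : Compr A) {g d : ℝ} (hg : ∀ i, g ≤ A.top - Cp.z i) (hd : |d| ≤ g)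
    (j : Fin (K + 1)) : 0 ≤ thA Cp d j := by
  induction j using Fin.lastCases with
  | last => simp [thA, gapTop_last]
  | cast i => simp only [thA, Fin.snoc_castSucc]; linarith [hg i, (abs_le.1 hd).1]

lemma abs_thA_sub (Cp : Compr A) (d : ℝ) (j : Fin (K + 1)) :
    |thA Cp d j - thA Cp 0 j| ≤ |d| := by
  induction j using Fin.lastCases with
  | last => simp [thA]
  | cast i => simp [thA]

lemma stepX_continuous (θ b : Fin (K + 1) → ℝ) (κ : ℝ) (lin : Bool) :
    Continuous (stepX θ b κ lin) := by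
  unfold stepX
  cases lin <;> simp <;> fun_prop

lemma stepX_bounds (Cp : Compr A) {g d κ : ℝ} (hg : ∀ i, g ≤ A.top - Cp.z i) (hd : |d| < g)
    (hκ : κ ∈ Set.Icc (0 : ℝ) 1) (lin : Bool) :
    ∃ C : ℝ, ∀ z, Real.exp (-(C * (1 + ∑ i, z i ^ 2))) ≤ stepX (thA Cp d) (bA Cp) κ lin z ∧
      stepX (thA Cp d) (bA Cp) κ lin z ≤ C := by
  set θ := thA Cp d with hθd
  set b := bA Cp with hbd
  have hθ : ∀ j, 0 ≤ θ j := thA_nonneg Cp hg hd.le
  set U := (∑ j, b j ^ 2 / (2 * θ j)) + 1 with hU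
  set M := (∑ j, θ j) + 2 with hM
  refine ⟨max M (Real.exp U), fun z => ?_⟩
  set Q := ∑ j, θ j * z (Sum.inl j) ^ 2
  set u := z (Sum.inr 0) with hu
  set a := ∑ j, b j * z (Sum.inl j) with ha
  have hb : |a| ≤ Q / 2 + ∑ j, b j ^ 2 / (2 * θ j) := by
    rw [ha, Finset.sum_div, ← Finset.sum_add_distrib]
    refine (Finset.abs_sum_le_sum_abs _ _).trans (Finset.sum_le_sum fun j _ => ?_)
    induction j using Fin.lastCases with
    | last => simp [hbd, bA, hθd, thA, gapTop_last]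
    | cast i =>
      have hp : 0 < θ i.castSucc := by
        simp only [hθd, thA, Fin.snoc_castSucc]
        linarith [hg i, (abs_lt.1 hd).1]
      rw [abs_mul, div_add_div _ _ two_ne_zero (by positivity), le_div_iff₀ (by positivity)]
      rw [← sq_abs (z (Sum.inl i.castSucc)), ← sq_abs (b i.castSucc)]
      nlinarith [sq_nonneg (θ i.castSucc * |z (Sum.inl i.castSucc)| - |b i.castSucc|)]
  have hk : |Real.sqrt κ * u| ≤ κ * u ^ 2 / 2 + 1 := by
    rw [abs_mul, abs_of_nonneg (Real.sqrt_nonneg κ)]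
    nlinarith [sq_nonneg (Real.sqrt κ * |u| - 1), Real.sq_sqrt hκ.1, sq_abs u]
  have hz : Q + κ * u ^ 2 + u ^ 2 + 1 ≤ M * (1 + ∑ i, z i ^ 2) := by
    have h1 : ∀ i, z i ^ 2 ≤ ∑ i, z i ^ 2 := fun i =>
      Finset.single_le_sum (f := fun i => z i ^ 2) (fun _ _ => sq_nonneg _) (Finset.mem_univ i)
    have h2 : Q ≤ (∑ j, θ j) * ∑ i, z i ^ 2 := by
      rw [Finset.sum_mul]
      exact Finset.sum_le_sum fun j _ => mul_le_mul_of_nonneg_left (h1 _) (hθ j)
    have h3 : 0 ≤ ∑ j, θ j := Finset.sum_nonneg fun j _ => hθ j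
    have h4 : κ * u ^ 2 ≤ ∑ i, z i ^ 2 :=
      (mul_le_of_le_one_left (sq_nonneg _) hκ.2).trans (h1 _)
    rw [hM]
    nlinarith [h1 (Sum.inr 0)]
  have hQ : 0 ≤ Q := Finset.sum_nonneg fun j _ => mul_nonneg (hθ j) (sq_nonneg _)
  have hku : |Real.sqrt κ * u| ≤ 1 + u ^ 2 := by
    refine hk.trans ?_
    nlinarith [mul_le_mul_of_nonneg_right hκ.2 (sq_nonneg u)]
  have hku2 := mul_nonneg hκ.1 (sq_nonneg u)
  have hS : 0 ≤ 1 + ∑ i, z i ^ 2 := by positivity
  have hcosh : ∀ y : ℝ, Real.cosh y ≤ Real.exp |y| := fun y => by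
    rw [Real.cosh_eq]
    linarith [Real.exp_le_exp.2 (le_abs_self y), Real.exp_le_exp.2 (neg_le_abs y)]
  refine ⟨?_, ?_⟩
  · refine le_trans ?_ (le_mul_of_one_le_right (Real.exp_pos _).le (Real.one_le_cosh _))
    refine Real.exp_le_exp.2 ?_
    have h1 := mul_le_mul_of_nonneg_right (le_max_left M (Real.exp U)) hS
    cases lin
    · simp only [Bool.false_eq_true, if_false, ← hu]
      linarith [abs_nonneg (Real.sqrt κ * u), sq_nonneg u]
    · simp only [if_true, ← hu]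
      linarith [(abs_le.1 hku).1]
  · refine le_trans ?_ (le_max_right _ _)
    refine (mul_le_mul_of_nonneg_left (hcosh _) (Real.exp_pos _).le).trans ?_
    rw [← Real.exp_add]
    refine Real.exp_le_exp.2 ?_
    cases lin
    · simp only [Bool.false_eq_true, if_false, ← hu, ← ha, hU]
      linarith [abs_add_le a (Real.sqrt κ * u)]
    · simp only [if_true, add_zero, ← hu, ← ha, hU]
      linarith [le_abs_self (Real.sqrt κ * u)]

/-- The value of the step weight on a cascade. -/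
def val (Cp : Compr A) (m : Fin r → ℝ) (q : Fin (r + 1) → ℝ) (d κ : ℝ) (lin : Bool) (k : ℕ) : ℝ :=
  cascV m (Sum.elim (fun _ => A.coordEl m q) fun _ => powEl q k)
    (stepX (thA Cp d) (bA Cp) κ lin)

/-- Its first order part in the test strength. -/
def mainTerm (Cp : Compr A) (m : Fin r → ℝ) (q : Fin (r + 1) → ℝ) (κ : ℝ) (lin : Bool) (k : ℕ) :
    ℝ :=
  if lin then -(κ / 2) * ∑ p, weight m p * (dampEl m κ (powEl q k)).v p
  else siteValue m (fun p => (Cp.fieldEl m q).v p + κ * (dampEl m κ (powEl q k)).v p) -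
    siteValue m (Cp.fieldEl m q).v

/-- The value depends little on the shift of the weights. -/
theorem val_near (hCV : CascValueStmt) (Cp : Compr A) {g C₀ : ℝ} (hg : ∀ i, g ≤ A.top - Cp.z i) :
    ∃ C, 0 ≤ C ∧ ∀ (r : ℕ) (m : Fin r → ℝ) (q : Fin (r + 1) → ℝ), IsPath m q →
      (A.coordEl m q).IsCov → (A.coordEl m q).s ≤ C₀ →
      ∀ κ ∈ Set.Icc (0 : ℝ) 1, ∀ (lin : Bool) (k : ℕ) (d d' : ℝ), |d| ≤ g → |d'| ≤ g →
        |val Cp m q d κ lin k - val Cp m q d' 0 lin k - mainTerm Cp m q κ lin k| ≤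
          C * (|d| + |d'|) + κ ^ 2 := by
  set Sb := ∑ j, bA Cp j ^ 2 with hSb
  refine ⟨(K + 1 : ℝ) * |C₀| + 2 * (Sb * (2 * C₀ ^ 2)), by positivity,
    fun r m q hq hP hC κ hκ lin k d d' hd hd' => ?_⟩
  have hm := exps_of_path hq
  set P := A.coordEl m q with hPdef
  set E := powEl q k with hE
  have hEc : E.IsCov := powEl_isCov hq k
  have hC0 : 0 ≤ C₀ := (s_nonneg hP).trans hC
  rw [abs_of_nonneg hC0]
  have h00 : |(0 : ℝ)| ≤ g := by rw [abs_zero]; exact (abs_nonneg d).trans hd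
  set R : ℝ → Fin (r + 1) → ℝ := fun t p => ∑ j, bA Cp j ^ 2 * (dampEl m (thA Cp t j) P).v p
  set Rs : ℝ → ℝ := fun t => ∑ j, bA Cp j ^ 2 * (dampEl m (thA Cp t j) P).s
  set Qd : ℝ → ℝ := fun t => ∑ j, quadV m (thA Cp t j) P
  have hval : ∀ t, |t| ≤ g → ∀ e ∈ Set.Icc (0 : ℝ) 1, val Cp m q t e lin k =
      Qd t + quadV m e E + siteValue m (fun p => R t p + if lin then 0 else e * (dampEl m e E).v p) +
        (Rs t + e * (dampEl m e E).s) / 2 -
        if lin then e / 2 * ∑ p, weight m p * (dampEl m e E).v p else 0 := fun t ht e he =>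
    hCV K r m hm P E hP hEc (thA Cp t) (bA Cp) e lin (thA_nonneg Cp hg ht) he.1
  have hR0 : R 0 = (Cp.fieldEl m q).v := by
    funext p
    simp [R, thA, bA, Fin.sum_univ_castSucc, Compr.fieldEl, P]
  have hdiff : ∀ t, |t| ≤ g → |Qd t - Qd 0| ≤ (K + 1 : ℝ) * C₀ * |t| ∧
      |Rs t - Rs 0| ≤ Sb * (2 * C₀ ^ 2) * |t| ∧ ∀ p, |R t p - R 0 p| ≤ Sb * (2 * C₀ ^ 2) * |t| := by
    intro t ht
    have hs := fun j => dampEl_sub hm hP hC (thA_nonneg Cp hg ht j) (thA_nonneg Cp hg h00 j)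
    have hgen : ∀ (F F' : Fin (K + 1) → ℝ), (∀ j, |F j - F' j| ≤ 2 * C₀ ^ 2 * |t|) →
        |(∑ j, bA Cp j ^ 2 * F j) - ∑ j, bA Cp j ^ 2 * F' j| ≤ Sb * (2 * C₀ ^ 2) * |t| := by
      intro F F' h
      rw [← Finset.sum_sub_distrib, hSb, mul_assoc, Finset.sum_mul]
      refine (Finset.abs_sum_le_sum_abs _ _).trans (Finset.sum_le_sum fun j _ => ?_)
      rw [← mul_sub, abs_mul, abs_of_nonneg (sq_nonneg (bA Cp j))]
      exact mul_le_mul_of_nonneg_left (h j) (sq_nonneg _)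
    refine ⟨?_, hgen _ _ fun j => ?_, fun p => hgen _ _ fun j => ?_⟩
    · rw [← Finset.sum_sub_distrib]
      refine (Finset.abs_sum_le_sum_abs _ _).trans
        ((Finset.sum_le_sum fun j _ => (quadV_sub hm hP hC (thA_nonneg Cp hg ht j)
          (thA_nonneg Cp hg h00 j)).trans (mul_le_mul (abs_thA_sub Cp t j) hC (s_nonneg hP)
            (abs_nonneg t))).trans_eq ?_)
      simp
      ring
    · refine ((hs j).1).trans ?_
      rw [show 2 * C₀ ^ 2 * |t| = 2 * C₀ * |t| * C₀ by ring]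
      exact mul_le_mul (mul_le_mul_of_nonneg_left (abs_thA_sub Cp t j) (by positivity)) hC
        (s_nonneg hP) (by positivity)
    · refine ((hs j).2 p).trans ?_
      rw [show 2 * C₀ ^ 2 * |t| = 2 * C₀ * |t| * C₀ by ring]
      exact mul_le_mul (mul_le_mul_of_nonneg_left (abs_thA_sub Cp t j) (by positivity))
        (((hP.mono (Fin.le_last p)).trans hP.le).trans hC) (cov_nonneg hP p) (by positivity)
  have hfield : ∀ t, |t| ≤ g → ∀ c : ℝ, 0 ≤ c →
      IsFieldPath m (fun p => R t p + c * (dampEl m κ E).v p) := by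
    intro t ht c hc
    have hcv := fun j => dampEl_isCov hm hP (thA_nonneg Cp hg ht j)
    have hD := dampEl_isCov hm hEc hκ.1
    refine ⟨hm.pos, hm.lt_one, hm.mono, fun p p' h => add_le_add (Finset.sum_le_sum fun j _ =>
      mul_le_mul_of_nonneg_left ((hcv j).mono h) (sq_nonneg _))
        (mul_le_mul_of_nonneg_left (hD.mono h) hc), ?_⟩
    exact add_nonneg (Finset.sum_nonneg fun j _ => mul_nonneg (sq_nonneg _) (hcv j).nonneg)
      (mul_nonneg hc hD.nonneg)
  have hsite : ∀ t, |t| ≤ g → ∀ c : ℝ, 0 ≤ c →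
      |siteValue m (fun p => R t p + c * (dampEl m κ E).v p) -
        siteValue m (fun p => R 0 p + c * (dampEl m κ E).v p)| ≤ Sb * (2 * C₀ ^ 2) * |t| / 2 :=
    fun t ht c hc => siteValue_lip (hfield 0 h00 c hc) (hfield t ht c hc) fun p => by
      simpa using (hdiff t ht).2.2 p
  have hq2 := abs_le.1 (quadV_add_damp hm hEc le_rfl hκ.1)
  rw [hval d hd κ hκ, hval d' hd' 0 ⟨le_rfl, zero_le_one⟩, mainTerm, ← hR0, ← hE,
    quadV_zero, zero_mul]
  obtain ⟨a1, a2, -⟩ := hdiff d hd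
  obtain ⟨b1, b2, -⟩ := hdiff d' hd'
  rw [abs_le] at a1 a2 b1 b2
  have s2 := hsite d' hd' 0 le_rfl
  simp only [zero_mul, add_zero] at s2
  rw [abs_le] at s2
  rw [abs_le]
  cases lin
  · have s1 := abs_le.1 (hsite d hd κ hκ.1)
    simp only [Bool.false_eq_true, if_false, zero_mul, add_zero, sub_zero]
    constructor <;> nlinarith
  · have s1 := hsite d hd 0 le_rfl
    simp only [zero_mul, add_zero] at s1
    rw [abs_le] at s1
    simp only [if_true, zero_div, zero_mul, add_zero, sub_zero, neg_mul]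
    constructor <;> nlinarith

end Vale.Agent.P166.Haar2.Stationary
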